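import Mathlib

open scoped BigOperators

namespace Vale.Agent.P249

theorem glue_geo (A : ℝ) (hA : 2 ≤ A) (S : Finset ℤ) (m : ℤ) (h : ∀ k ∈ S, k ≤ m) :
    ∑ k ∈ S, A ^ k ≤ 2 * A ^ m := by
  have hA0 : 0 < A := by linarith
  have hm0 : 0 < A ^ m := zpow_pos hA0 m
  have hterm : ∀ k ∈ S, A ^ k ≤ A ^ m * (1 / (2 : ℝ)) ^ (m - k).toNat := by
    intro k hk
    have hk' := h k hk
    obtain ⟨i, hi⟩ : ∃ i : ℕ, m - k = (i : ℤ) := ⟨(m - k).toNat, by omega⟩
    have hkk : k = m - (i : ℤ) := by omega
    rw [hi, Int.toNat_natCast, hkk, zpow_sub₀ hA0.ne', zpow_natCast, div_eq_mul_inv]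
    apply mul_le_mul_of_nonneg_left _ hm0.le
    rw [one_div, inv_pow]
    exact inv_anti₀ (by positivity) (pow_le_pow_left₀ (by norm_num) hA i)
  have hinj : Set.InjOn (fun k : ℤ => (m - k).toNat) (S : Set ℤ) := by
    intro a ha b hb hab
    have h1 := h a ha
    have h2 := h b hb
    simp only at hab
    omega
  calc ∑ k ∈ S, A ^ k ≤ ∑ k ∈ S, A ^ m * (1 / (2 : ℝ)) ^ (m - k).toNat :=
        Finset.sum_le_sum hterm
    _ = A ^ m * ∑ k ∈ S, (1 / (2 : ℝ)) ^ (m - k).toNat := by rw [Finset.mul_sum]
    _ = A ^ m * ∑ i ∈ S.image (fun k : ℤ => (m - k).toNat), (1 / (2 : ℝ)) ^ i := by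
        rw [Finset.sum_image hinj]
    _ ≤ A ^ m * ∑ i ∈ Finset.range ((S.image (fun k : ℤ => (m - k).toNat)).sup id + 1),
          (1 / (2 : ℝ)) ^ i := by
        apply mul_le_mul_of_nonneg_left _ hm0.le
        apply Finset.sum_le_sum_of_subset_of_nonneg
        · intro i hi
          rw [Finset.mem_range]
          have := Finset.le_sup (f := id) hi
          simp only [id] at this
          omega
        · intros
          positivity
    _ ≤ A ^ m * 2 := by
        apply mul_le_mul_of_nonneg_left _ hm0.le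
        exact sum_geometric_two_le _
    _ = 2 * A ^ m := by ring

theorem glue_mod_eq {B : ℕ} {k l : ℤ} (h : k % (B : ℤ) = l % (B : ℤ)) (h1 : l - B < k)
    (h2 : k < l + B) : k = l := by
  have hd : (B : ℤ) ∣ k - l := Int.ModEq.dvd (Int.ModEq.symm h)
  have habs : |k - l| < (B : ℤ) := by
    rw [abs_lt]; constructor <;> linarith
  have := Int.eq_zero_of_abs_lt_dvd hd habs
  omega

theorem gluing {X : Type} [Fintype X] (d : X → X → ℝ)
    (h0 : ∀ x, d x x = 0) (hpos : ∀ x y, x ≠ y → 0 < d x y)
    {E : Type} [NormedAddCommGroup E] (A K Q G c : ℝ) (hA : 2 ≤ A) (hK : 0 ≤ K)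
    (hQ : 0 < Q) (hG : 1 ≤ G) (hc : 0 < c) (hc1 : c ≤ 1) (B : ℕ) (hB : G * A ≤ A ^ B)
    (hBQ : 4 * Q ≤ c * A ^ B)
    (h : ∀ r : ℝ, 0 < r → ∃ F : X → E, (∀ x y, ‖F x - F y‖ ≤ K * d x y) ∧
      (∀ x y, r ≤ d x y → d x y ≤ A * r → c * d x y ≤ ‖F x - F y‖) ∧
      (∀ x y, ‖F x - F y‖ ≤ Q * r) ∧ (∀ x y, d x y ≤ r / G → F x = F y)) :
    ∃ F : X → Fin B → E, (∀ x y b, ‖F x b - F y b‖ ≤ (2 * K + 1) * d x y) ∧
      (∀ x y, ∃ b, c / 2 * d x y ≤ ‖F x b - F y b‖) := by
  classical
  have hA0 : 0 < A := by linarith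
  have hA1 : 1 < A := by linarith
  have hG0 : 0 < G := by linarith
  have hB0 : 0 < B := by
    rcases Nat.eq_zero_or_pos B with hB' | hB'
    · subst hB'
      rw [pow_zero] at hB
      nlinarith
    · exact hB'
  have hBz : (0 : ℤ) < (B : ℤ) := by exact_mod_cast hB0
  have hdn : ∀ x y, 0 ≤ d x y := by
    intro x y
    by_cases hxy : x = y
    · subst hxy; rw [h0]
    · exact (hpos x y hxy).le
  choose f hf1 hf2 hf3 hf4 using fun k : ℤ => h (A ^ k) (zpow_pos hA0 k)
  have hj : ∀ x y, ∃ j : ℤ, x ≠ y → A ^ j ≤ d x y ∧ d x y < A ^ (j + 1) := by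
    intro x y
    by_cases hxy : x = y
    · exact ⟨0, fun h => absurd hxy h⟩
    · obtain ⟨n, hn⟩ := exists_mem_Ico_zpow (hpos x y hxy) hA1
      exact ⟨n, fun _ => ⟨hn.1, hn.2⟩⟩
  choose j hj using hj
  set S : Finset ℤ := Finset.univ.image (fun p : X × X => j p.1 p.2) with hS
  have hAB : A ^ (B : ℤ) = A ^ B := zpow_natCast A B
  have hzero : ∀ x y, x ≠ y → ∀ k : ℤ, j x y + B ≤ k → f k x - f k y = 0 := by
    intro x y hxy k hk
    have hd := (hj x y hxy).2
    have : d x y ≤ A ^ k / G := by
      rw [le_div_iff₀ hG0]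
      calc d x y * G ≤ A ^ (j x y + 1) * G := by
            apply mul_le_mul_of_nonneg_right hd.le hG0.le
        _ = A ^ (j x y) * (G * A) := by
            rw [zpow_add₀ hA0.ne', zpow_one]; ring
        _ ≤ A ^ (j x y) * A ^ B := by
            apply mul_le_mul_of_nonneg_left hB (zpow_pos hA0 _).le
        _ = A ^ (j x y + B) := by rw [zpow_add₀ hA0.ne', zpow_natCast]
        _ ≤ A ^ k := zpow_le_zpow_right₀ hA1.le hk
    rw [hf4 k x y this, sub_self]
  refine ⟨fun x b => ∑ k ∈ S.filter (fun k => k % (B : ℤ) = (b : ℤ)), f k x, ?_, ?_⟩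
  · intro x y b
    by_cases hxy : x = y
    · subst hxy
      rw [sub_self, norm_zero, h0, mul_zero]
    · have hd := hj x y hxy
      have hd0 : 0 < d x y := hpos x y hxy
      set J := j x y with hJ
      rw [← Finset.sum_sub_distrib]
      set T := S.filter (fun k => k % (B : ℤ) = (b : ℤ)) with hT
      set T1 := T.filter (fun k => J + B ≤ k) with hT1
      set T2 := (T.filter (fun k => ¬ (J + B ≤ k))).filter (fun k => J ≤ k) with hT2
      set T3 := ((T.filter (fun k => ¬ (J + B ≤ k))).filter (fun k => ¬ (J ≤ k))).filter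
        (fun k => J - B ≤ k) with hT3
      set T4 := ((T.filter (fun k => ¬ (J + B ≤ k))).filter (fun k => ¬ (J ≤ k))).filter
        (fun k => ¬ (J - B ≤ k)) with hT4
      have hsplit : ∑ k ∈ T, (f k x - f k y) =
          ∑ k ∈ T1, (f k x - f k y) + (∑ k ∈ T2, (f k x - f k y) +
            (∑ k ∈ T3, (f k x - f k y) + ∑ k ∈ T4, (f k x - f k y))) := by
        rw [hT3, hT4, Finset.sum_filter_add_sum_filter_not, hT2,
          Finset.sum_filter_add_sum_filter_not, hT1, Finset.sum_filter_add_sum_filter_not]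
      have hcard : ∀ (U : Finset ℤ), U ⊆ T → (∀ k ∈ U, ∀ l ∈ U, k - B < l) →
          ‖∑ k ∈ U, (f k x - f k y)‖ ≤ K * d x y := by
        intro U hU hUU
        have hc1 : U.card ≤ 1 := by
          rw [Finset.card_le_one]
          intro k hk l hl
          have hk' := (Finset.mem_filter.mp (hU hk)).2
          have hl' := (Finset.mem_filter.mp (hU hl)).2
          apply glue_mod_eq (B := B)
          · rw [hk', hl']
          · have := hUU l hl k hk
            linarith
          · have := hUU k hk l hl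
            linarith
        calc ‖∑ k ∈ U, (f k x - f k y)‖ ≤ ∑ k ∈ U, ‖f k x - f k y‖ := norm_sum_le _ _
          _ ≤ ∑ k ∈ U, K * d x y := Finset.sum_le_sum (fun k _ => hf1 k x y)
          _ = U.card * (K * d x y) := by rw [Finset.sum_const, nsmul_eq_mul]
          _ ≤ 1 * (K * d x y) := by
              apply mul_le_mul_of_nonneg_right _ (mul_nonneg hK hd0.le)
              exact_mod_cast hc1
          _ = K * d x y := one_mul _
      have e1 : ∑ k ∈ T1, (f k x - f k y) = 0 := by
        apply Finset.sum_eq_zero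
        intro k hk
        exact hzero x y hxy k (Finset.mem_filter.mp hk).2
      have e2 : ‖∑ k ∈ T2, (f k x - f k y)‖ ≤ K * d x y := by
        apply hcard
        · exact (Finset.filter_subset _ _).trans (Finset.filter_subset _ _)
        · intro k hk l hl
          have hk1 := (Finset.mem_filter.mp hk)
          have hk2 := (Finset.mem_filter.mp hk1.1).2
          have hl1 := (Finset.mem_filter.mp hl).2
          omega
      have e3 : ‖∑ k ∈ T3, (f k x - f k y)‖ ≤ K * d x y := by
        apply hcard
        · exact ((Finset.filter_subset _ _).trans (Finset.filter_subset _ _)).trans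
            (Finset.filter_subset _ _)
        · intro k hk l hl
          have hk1 := (Finset.mem_filter.mp hk)
          have hk2 := (Finset.mem_filter.mp hk1.1).2
          have hl1 := (Finset.mem_filter.mp hl).2
          omega
      have e4 : ‖∑ k ∈ T4, (f k x - f k y)‖ ≤ d x y := by
        calc ‖∑ k ∈ T4, (f k x - f k y)‖ ≤ ∑ k ∈ T4, ‖f k x - f k y‖ := norm_sum_le _ _
          _ ≤ ∑ k ∈ T4, Q * A ^ k := Finset.sum_le_sum (fun k _ => hf3 k x y)
          _ = Q * ∑ k ∈ T4, A ^ k := by rw [Finset.mul_sum]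
          _ ≤ Q * (2 * A ^ (J - B)) := by
              apply mul_le_mul_of_nonneg_left _ hQ.le
              apply glue_geo A hA
              intro k hk
              have hk1 := (Finset.mem_filter.mp hk).2
              omega
          _ = 2 * Q / A ^ B * A ^ J := by
              rw [zpow_sub₀ hA0.ne', zpow_natCast]; field_simp
          _ ≤ 1 * A ^ J := by
              apply mul_le_mul_of_nonneg_right _ (zpow_pos hA0 _).le
              rw [div_le_one (by positivity)]
              have hp : 0 < A ^ B := by positivity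
              nlinarith
          _ ≤ d x y := by rw [one_mul]; exact hd.1
      rw [hsplit, e1, zero_add]
      calc ‖∑ k ∈ T2, (f k x - f k y) + (∑ k ∈ T3, (f k x - f k y) +
            ∑ k ∈ T4, (f k x - f k y))‖
          ≤ ‖∑ k ∈ T2, (f k x - f k y)‖ + (‖∑ k ∈ T3, (f k x - f k y)‖ +
            ‖∑ k ∈ T4, (f k x - f k y)‖) :=
            (norm_add_le _ _).trans (add_le_add le_rfl (norm_add_le _ _))
        _ ≤ K * d x y + (K * d x y + d x y) := add_le_add e2 (add_le_add e3 e4)
        _ = (2 * K + 1) * d x y := by ring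
  · intro x y
    by_cases hxy : x = y
    · subst hxy
      refine ⟨⟨0, hB0⟩, ?_⟩
      rw [h0, mul_zero]
      exact norm_nonneg _
    · have hd := hj x y hxy
      have hd0 : 0 < d x y := hpos x y hxy
      set J := j x y with hJ
      have hmod0 : 0 ≤ J % (B : ℤ) := Int.emod_nonneg _ hBz.ne'
      have hmod1 : J % (B : ℤ) < B := Int.emod_lt_of_pos _ hBz
      refine ⟨⟨(J % (B : ℤ)).toNat, by omega⟩, ?_⟩
      have hb : (((⟨(J % (B : ℤ)).toNat, by omega⟩ : Fin B) : ℕ) : ℤ) = J % (B : ℤ) := by
        simp only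
        omega
      rw [← Finset.sum_sub_distrib, hb]
      set T := S.filter (fun k => k % (B : ℤ) = J % (B : ℤ)) with hT
      have hJS : J ∈ T := by
        rw [hT, Finset.mem_filter]
        refine ⟨?_, rfl⟩
        rw [hS, Finset.mem_image]
        exact ⟨(x, y), Finset.mem_univ _, rfl⟩
      rw [← Finset.add_sum_erase T _ hJS]
      set U := T.erase J with hU
      have hUrest : ‖∑ k ∈ U, (f k x - f k y)‖ ≤ c / 2 * d x y := by
        have hs : ∑ k ∈ U, (f k x - f k y) =
            ∑ k ∈ U.filter (fun k => k ≤ J - B), (f k x - f k y) := by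
          rw [Finset.sum_filter]
          apply Finset.sum_congr rfl
          intro k hk
          split_ifs with hkJ
          · rfl
          · have hkT := Finset.mem_of_mem_erase hk
            have hkne := Finset.ne_of_mem_erase hk
            have hkm := (Finset.mem_filter.mp hkT).2
            apply hzero x y hxy
            by_contra hcon
            apply hkne
            apply glue_mod_eq (B := B) hkm
            · omega
            · exact not_le.mp hcon
        rw [hs]
        calc ‖∑ k ∈ U.filter (fun k => k ≤ J - B), (f k x - f k y)‖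
            ≤ ∑ k ∈ U.filter (fun k => k ≤ J - B), ‖f k x - f k y‖ := norm_sum_le _ _
          _ ≤ ∑ k ∈ U.filter (fun k => k ≤ J - B), Q * A ^ k :=
              Finset.sum_le_sum (fun k _ => hf3 k x y)
          _ = Q * ∑ k ∈ U.filter (fun k => k ≤ J - B), A ^ k := by rw [Finset.mul_sum]
          _ ≤ Q * (2 * A ^ (J - B)) := by
              apply mul_le_mul_of_nonneg_left _ hQ.le
              apply glue_geo A hA
              intro k hk
              exact (Finset.mem_filter.mp hk).2
          _ = 2 * Q / A ^ B * A ^ J := by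
              rw [zpow_sub₀ hA0.ne', zpow_natCast]; field_simp
          _ ≤ c / 2 * A ^ J := by
              apply mul_le_mul_of_nonneg_right _ (zpow_pos hA0 _).le
              rw [div_le_iff₀ (by positivity)]
              linarith
          _ ≤ c / 2 * d x y := by
              apply mul_le_mul_of_nonneg_left hd.1 (by positivity)
      have hmain : c * d x y ≤ ‖f J x - f J y‖ := by
        apply hf2 J x y hd.1
        have := hd.2.le
        rw [zpow_add₀ hA0.ne', zpow_one] at this
        linarith
      have htri : ‖f J x - f J y‖ - ‖∑ k ∈ U, (f k x - f k y)‖ ≤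
          ‖f J x - f J y + ∑ k ∈ U, (f k x - f k y)‖ := by
        have := norm_sub_norm_le (f J x - f J y) (-(∑ k ∈ U, (f k x - f k y)))
        rwa [norm_neg, sub_neg_eq_add] at this
      linarith

end Vale.Agent.P249
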