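import Mathlib

open MeasureTheory
open scoped ENNReal

namespace Vale.Agent.P249

theorem contraction {X : Type} [Fintype X] (f : X → ℝ) (θ : ℝ) (hθ : 0 ≤ θ) :
    ∃ g : X → ℝ, (∀ x y, |g x - g y| ≤ |f x - f y|) ∧
      (∀ x y, |f x - f y| ≤ θ → g x = g y) ∧
      (∀ x y, |f x - f y| - (Fintype.card X : ℝ) ^ 2 * θ ≤ |g x - g y|) := by
  classical
  let I : X × X → Set ℝ := fun p => if f p.2 - f p.1 ≤ θ then Set.Ioc (f p.1) (f p.2) else ∅
  let U : Set ℝ := ⋃ p, I p
  have hIm : ∀ p, MeasurableSet (I p) := by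
    intro p
    simp only [I]
    split_ifs
    · exact measurableSet_Ioc
    · exact MeasurableSet.empty
  have hUm : MeasurableSet U := MeasurableSet.iUnion hIm
  have hIv : ∀ p, volume (I p) ≤ ENNReal.ofReal θ := by
    intro p
    simp only [I]
    split_ifs with h
    · rw [Real.volume_Ioc]
      exact ENNReal.ofReal_le_ofReal h
    · simp
  have hUv : volume U ≤ ENNReal.ofReal ((Fintype.card X : ℝ) ^ 2 * θ) := by
    calc volume U ≤ ∑ p, volume (I p) := measure_iUnion_fintype_le _ _
      _ ≤ ∑ _p : X × X, ENNReal.ofReal θ := Finset.sum_le_sum (fun p _ => hIv p)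
      _ = ENNReal.ofReal ((Fintype.card X : ℝ) ^ 2 * θ) := by
        rw [Finset.sum_const, Finset.card_univ, Fintype.card_prod, nsmul_eq_mul,
          ENNReal.ofReal_mul (by positivity)]
        congr 1
        rw [← Nat.cast_pow, ENNReal.ofReal_natCast, sq]
  have hfin : ∀ S : Set ℝ, volume (U ∩ S) ≠ ∞ := fun S =>
    ne_top_of_le_ne_top (ne_top_of_le_ne_top ENNReal.ofReal_ne_top hUv)
      (measure_mono Set.inter_subset_left)
  let g : X → ℝ := fun x => f x - (volume (U ∩ Set.Iic (f x))).toReal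
  have key : ∀ x y, f x ≤ f y →
      g y - g x = (f y - f x) - (volume (U ∩ Set.Ioc (f x) (f y))).toReal := by
    intro x y hxy
    have h1 : U ∩ Set.Iic (f y) = (U ∩ Set.Iic (f x)) ∪ (U ∩ Set.Ioc (f x) (f y)) := by
      rw [← Set.inter_union_distrib_left, Set.Iic_union_Ioc_eq_Iic hxy]
    have hd : Disjoint (U ∩ Set.Iic (f x)) (U ∩ Set.Ioc (f x) (f y)) := by
      refine Set.disjoint_left.mpr ?_
      rintro t ⟨_, ht1⟩ ⟨_, ht2⟩
      exact absurd ht1 (not_le.mpr ht2.1)
    have h2 : volume (U ∩ Set.Iic (f y)) =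
        volume (U ∩ Set.Iic (f x)) + volume (U ∩ Set.Ioc (f x) (f y)) := by
      rw [h1, measure_union hd (hUm.inter measurableSet_Ioc)]
    simp only [g]
    rw [h2, ENNReal.toReal_add (hfin _) (hfin _)]
    ring
  have hn : ∀ S : Set ℝ, 0 ≤ (volume (U ∩ S)).toReal := fun S => ENNReal.toReal_nonneg
  have hle1 : ∀ x y, f x ≤ f y → (volume (U ∩ Set.Ioc (f x) (f y))).toReal ≤ f y - f x := by
    intro x y hxy
    have h1 : volume (U ∩ Set.Ioc (f x) (f y)) ≤ ENNReal.ofReal (f y - f x) := by
      rw [← Real.volume_Ioc]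
      exact measure_mono Set.inter_subset_right
    calc (volume (U ∩ Set.Ioc (f x) (f y))).toReal
        ≤ (ENNReal.ofReal (f y - f x)).toReal :=
          ENNReal.toReal_mono ENNReal.ofReal_ne_top h1
      _ = f y - f x := ENNReal.toReal_ofReal (by linarith)
  have hle2 : ∀ x y, (volume (U ∩ Set.Ioc (f x) (f y))).toReal ≤
      (Fintype.card X : ℝ) ^ 2 * θ := by
    intro x y
    calc (volume (U ∩ Set.Ioc (f x) (f y))).toReal
        ≤ (ENNReal.ofReal ((Fintype.card X : ℝ) ^ 2 * θ)).toReal :=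
          ENNReal.toReal_mono ENNReal.ofReal_ne_top
            ((measure_mono Set.inter_subset_left).trans hUv)
      _ = _ := ENNReal.toReal_ofReal (by positivity)
  have heq : ∀ x y, f x ≤ f y → f y - f x ≤ θ →
      (volume (U ∩ Set.Ioc (f x) (f y))).toReal = f y - f x := by
    intro x y hxy hθ'
    have h1 : Set.Ioc (f x) (f y) ⊆ U := by
      intro t ht
      refine Set.mem_iUnion.mpr ⟨(x, y), ?_⟩
      simp only [I]
      rw [if_pos hθ']
      exact ht
    rw [Set.inter_eq_right.mpr h1, Real.volume_Ioc, ENNReal.toReal_ofReal (by linarith)]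
  have A : ∀ x y, f x ≤ f y → |g x - g y| ≤ |f x - f y| ∧
      (|f x - f y| ≤ θ → g x = g y) ∧
      |f x - f y| - (Fintype.card X : ℝ) ^ 2 * θ ≤ |g x - g y| := by
    intro x y hxy
    have h1 := key x y hxy
    have h2 := hle1 x y hxy
    have h3 := hle2 x y
    have h4 := hn (Set.Ioc (f x) (f y))
    have h5 : |f x - f y| = f y - f x := by rw [abs_sub_comm, abs_of_nonneg (by linarith)]
    have h6 : |g x - g y| = g y - g x := by rw [abs_sub_comm, abs_of_nonneg (by linarith)]
    refine ⟨by rw [h5, h6]; linarith, fun h7 => ?_, by rw [h5, h6]; linarith⟩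
    rw [h5] at h7
    have h8 := heq x y hxy h7
    linarith
  refine ⟨g, fun x y => ?_, fun x y => ?_, fun x y => ?_⟩
  · rcases le_total (f x) (f y) with h | h
    · exact (A x y h).1
    · rw [abs_sub_comm, abs_sub_comm (f x)]; exact (A y x h).1
  · rcases le_total (f x) (f y) with h | h
    · exact (A x y h).2.1
    · intro h7; exact ((A y x h).2.1 (by rwa [abs_sub_comm])).symm
  · rcases le_total (f x) (f y) with h | h
    · exact (A x y h).2.2
    · rw [abs_sub_comm, abs_sub_comm (g x)]; exact (A y x h).2.2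

end Vale.Agent.P249
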