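import Mathlib

namespace Vale.Agent.P249

noncomputable def Zf {X : Type} [Fintype X] (D : X → ℝ) (β : ℝ) : ℝ :=
  ∑ z, Real.exp (-(β * D z))

theorem Zf_pos {X : Type} [Fintype X] [Nonempty X] (D : X → ℝ) (β : ℝ) : 0 < Zf D β :=
  Finset.sum_pos (fun _ _ => Real.exp_pos _) Finset.univ_nonempty

theorem gibbs_jensen {X : Type} [Fintype X] [Nonempty X] (D : X → ℝ) (β : ℝ) :
    ∑ z, Real.exp (-(β * D z)) / Zf D β * (β * D z) ≤
      2 * (Real.log (Zf D (β / 2)) - Real.log (Zf D β)) := by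
  have hZ := Zf_pos D β
  have hZ2 := Zf_pos D (β / 2)
  set L := Real.log (Zf D (β / 2)) - Real.log (Zf D β) with hL
  have hexpL : Real.exp (-L) = Zf D β / Zf D (β / 2) := by
    rw [hL, neg_sub, Real.exp_sub, Real.exp_log hZ, Real.exp_log hZ2]
  have hsum1 : ∑ z, Real.exp (-(β * D z)) / Zf D β = 1 := by
    rw [← Finset.sum_div]
    exact div_self hZ.ne'
  have key : ∀ z, Real.exp (-(β * D z)) / Zf D β * (1 + (β * D z / 2 - L)) ≤
      Real.exp (-((β / 2) * D z)) / Zf D (β / 2) := by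
    intro z
    have h1 : 1 + (β * D z / 2 - L) ≤ Real.exp (β * D z / 2 - L) := by
      have := Real.add_one_le_exp (β * D z / 2 - L)
      linarith
    have h2 : Real.exp (-(β * D z)) / Zf D β * Real.exp (β * D z / 2 - L) =
        Real.exp (-((β / 2) * D z)) / Zf D (β / 2) := by
      rw [sub_eq_add_neg, Real.exp_add, hexpL]
      have h3 : Real.exp (-(β / 2 * D z)) = Real.exp (-(β * D z)) * Real.exp (β * D z / 2) := by
        rw [← Real.exp_add]
        congr 1
        ring
      rw [h3]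
      field_simp
    rw [← h2]
    exact mul_le_mul_of_nonneg_left h1 (div_nonneg (Real.exp_pos _).le hZ.le)
  have hsum := Finset.sum_le_sum (fun z (_ : z ∈ Finset.univ) => key z)
  have hr : ∑ z, Real.exp (-((β / 2) * D z)) / Zf D (β / 2) = 1 := by
    rw [← Finset.sum_div]
    exact div_self hZ2.ne'
  rw [hr] at hsum
  have hl : ∑ z, Real.exp (-(β * D z)) / Zf D β * (1 + (β * D z / 2 - L)) =
      1 - L + (∑ z, Real.exp (-(β * D z)) / Zf D β * (β * D z)) / 2 := by
    have : ∀ z, Real.exp (-(β * D z)) / Zf D β * (1 + (β * D z / 2 - L)) =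
        Real.exp (-(β * D z)) / Zf D β * (1 - L) +
          (Real.exp (-(β * D z)) / Zf D β * (β * D z)) / 2 := by
      intro z; ring
    rw [Finset.sum_congr rfl (fun z _ => this z), Finset.sum_add_distrib, ← Finset.sum_mul,
      ← Finset.sum_div _ _ (2:ℝ), hsum1]
    ring
  rw [hl] at hsum
  linarith

/-- Gibbs weights -/
noncomputable def gp {X : Type} [Fintype X] (d : X → X → ℝ) (β : ℝ) (x z : X) : ℝ :=
  Real.exp (-(β * d x z)) / Zf (d x) β

theorem gp_pos {X : Type} [Fintype X] [Nonempty X] (d : X → X → ℝ) (β : ℝ) (x z : X) :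
    0 < gp d β x z := div_pos (Real.exp_pos _) (Zf_pos _ _)

theorem gp_sum {X : Type} [Fintype X] [Nonempty X] (d : X → X → ℝ) (β : ℝ) (x : X) :
    ∑ z, gp d β x z = 1 := by
  unfold gp
  rw [← Finset.sum_div]
  exact div_self (Zf_pos _ _).ne'

theorem gp_le {X : Type} [Fintype X] [Nonempty X] (d : X → X → ℝ)
    (hs : ∀ x y, d x y = d y x)
    (ht : ∀ x y z, d x z ≤ d x y + d y z) (β : ℝ) (hβ : 0 ≤ β) (x y z : X) :
    gp d β x z ≤ Real.exp (2 * (β * d x y)) * gp d β y z := by
  have h1 : ∀ z, Real.exp (-(β * d x z)) ≤ Real.exp (β * d x y) * Real.exp (-(β * d y z)) := by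
    intro z
    rw [← Real.exp_add]
    apply Real.exp_le_exp.mpr
    have h := ht y x z
    rw [hs y x] at h
    nlinarith
  have h2 : Zf (d y) β ≤ Real.exp (β * d x y) * Zf (d x) β := by
    unfold Zf
    rw [Finset.mul_sum]
    apply Finset.sum_le_sum
    intro z _
    rw [← Real.exp_add]
    apply Real.exp_le_exp.mpr
    have h := ht x y z
    nlinarith
  have hZx := Zf_pos (d x) β
  have hZy := Zf_pos (d y) β
  unfold gp
  rw [div_le_iff₀ hZx]
  have h3 : Real.exp (2 * (β * d x y)) = Real.exp (β * d x y) * Real.exp (β * d x y) := by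
    rw [← Real.exp_add]; congr 1; ring
  rw [h3]
  have h4 : Real.exp (β * d x y) * Real.exp (-(β * d y z)) ≤
      Real.exp (β * d x y) * Real.exp (β * d x y) *
        (Real.exp (-(β * d y z)) / Zf (d y) β) * Zf (d x) β := by
    have : Real.exp (β * d x y) * Real.exp (β * d x y) *
        (Real.exp (-(β * d y z)) / Zf (d y) β) * Zf (d x) β =
        (Real.exp (β * d x y) * Real.exp (-(β * d y z))) *
          ((Real.exp (β * d x y) * Zf (d x) β) / Zf (d y) β) := by ring
    rw [this]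
    apply le_mul_of_one_le_right (mul_pos (Real.exp_pos _) (Real.exp_pos _)).le
    rw [le_div_iff₀ hZy, one_mul]
    exact h2
  exact (h1 z).trans h4

theorem exp_bound {t : ℝ} (h0 : 0 ≤ t) (h1 : t ≤ 1) : Real.exp (2 * t) - 1 ≤ 7 * t := by
  have hconv := convexOn_exp.2 (Set.mem_univ (0:ℝ)) (Set.mem_univ (2:ℝ))
    (sub_nonneg.mpr h1) h0 (by ring : (1 - t) + t = 1)
  simp only [smul_eq_mul, mul_zero, zero_add, Real.exp_zero, mul_one] at hconv
  have he : Real.exp 2 ≤ 8 := by
    have h := Real.exp_one_lt_d9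
    have h2 : Real.exp 2 = Real.exp 1 * Real.exp 1 := by
      rw [← Real.exp_add]; norm_num
    rw [h2]
    nlinarith [Real.exp_pos 1]
  have : Real.exp (2 * t) = Real.exp (t * 2) := by rw [mul_comm]
  rw [this]
  nlinarith

theorem gp_sub_le {X : Type} [Fintype X] [Nonempty X] (d : X → X → ℝ)
    (hn : ∀ x y, 0 ≤ d x y) (hs : ∀ x y, d x y = d y x)
    (ht : ∀ x y z, d x z ≤ d x y + d y z) (β : ℝ) (hβ : 0 ≤ β) (x y z : X)
    (h1 : β * d x y ≤ 1) :
    |gp d β x z - gp d β y z| ≤ 7 * (β * d x y) * gp d β x z := by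
  have hx := gp_pos d β x z
  have hy := gp_pos d β y z
  have hxy := gp_le d hs ht β hβ x y z
  have hyx := gp_le d hs ht β hβ y x z
  rw [hs y x] at hyx
  have hb := exp_bound (mul_nonneg hβ (hn x y)) h1
  rw [abs_le]
  constructor
  · nlinarith
  · rcases le_total (gp d β y z) (gp d β x z) with h | h
    · have ht0 : 0 ≤ 7 * (β * d x y) := mul_nonneg (by norm_num) (mul_nonneg hβ (hn x y))
      have e1 : (Real.exp (2 * (β * d x y)) - 1) * gp d β y z ≤ 7 * (β * d x y) * gp d β y z :=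
        mul_le_mul_of_nonneg_right hb hy.le
      have e2 : 7 * (β * d x y) * gp d β y z ≤ 7 * (β * d x y) * gp d β x z :=
        mul_le_mul_of_nonneg_left h ht0
      linarith
    · have : 0 ≤ 7 * (β * d x y) * gp d β x z :=
        mul_nonneg (mul_nonneg (by norm_num) (mul_nonneg hβ (hn x y))) hx.le
      linarith

/-- mean scaled displacement -/
noncomputable def kap {X : Type} [Fintype X] (d : X → X → ℝ) (β : ℝ) (x : X) : ℝ :=
  ∑ z, gp d β x z * (β * d x z)

theorem kap_nonneg {X : Type} [Fintype X] [Nonempty X] (d : X → X → ℝ)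
    (hn : ∀ x y, 0 ≤ d x y) (β : ℝ) (hβ : 0 ≤ β) (x : X) : 0 ≤ kap d β x :=
  Finset.sum_nonneg (fun z _ => mul_nonneg (gp_pos d β x z).le (mul_nonneg hβ (hn x z)))

theorem kap_sum {X : Type} [Fintype X] [Nonempty X] (d : X → X → ℝ)
    (h0 : ∀ x, d x x = 0) (hn : ∀ x y, 0 ≤ d x y) (b : ℝ) (hb : 0 < b) (J : ℕ) (x : X) :
    ∑ j ∈ Finset.range J, kap d (b / 2 ^ j) x ≤ 2 * Real.log (Fintype.card X) := by
  have h1 : ∀ j ∈ Finset.range J, kap d (b / 2 ^ j) x ≤
      2 * (Real.log (Zf (d x) (b / 2 ^ (j + 1))) - Real.log (Zf (d x) (b / 2 ^ j))) := by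
    intro j _
    have := gibbs_jensen (d x) (b / 2 ^ j)
    have h2 : b / 2 ^ j / 2 = b / 2 ^ (j + 1) := by
      rw [pow_succ, div_div]
    rw [h2] at this
    exact this
  refine (Finset.sum_le_sum h1).trans ?_
  rw [← Finset.mul_sum, Finset.sum_range_sub (fun j => Real.log (Zf (d x) (b / 2 ^ j)))]
  have h3 : Real.log (Zf (d x) (b / 2 ^ J)) ≤ Real.log (Fintype.card X) := by
    apply Real.log_le_log (Zf_pos _ _)
    unfold Zf
    have : ∑ z : X, Real.exp (-(b / 2 ^ J * d x z)) ≤ ∑ z : X, (1 : ℝ) := by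
      apply Finset.sum_le_sum
      intro z _
      rw [Real.exp_le_one_iff]
      have : 0 ≤ b / 2 ^ J * d x z := mul_nonneg (by positivity) (hn x z)
      linarith
    simpa using this
  have h4 : 0 ≤ Real.log (Zf (d x) (b / 2 ^ 0)) := by
    apply Real.log_nonneg
    unfold Zf
    have := Finset.single_le_sum (f := fun z => Real.exp (-(b / 2 ^ 0 * d x z)))
      (fun z _ => (Real.exp_pos _).le) (Finset.mem_univ x)
    simpa [h0 x] using this
  linarith

end Vale.Agent.P249
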