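import Mathlib
import Vale.Agent.P249.Gibbs

namespace Vale.Agent.P249

theorem add_rpow_le {P : ℝ} (hP : 1 ≤ P) {a b : ℝ} (ha : 0 ≤ a) (hb : 0 ≤ b) :
    (a + b) ^ P ≤ 2 ^ (P - 1) * (a ^ P + b ^ P) := by
  lift a to NNReal using ha
  lift b to NNReal using hb
  exact_mod_cast NNReal.rpow_add_le_mul_rpow_add_rpow a b hP

/-- radial truncation -/
noncomputable def trunc {E : Type} [NormedAddCommGroup E] [NormedSpace ℝ E] (τ : ℝ) (v : E) : E :=
  (min 1 (τ / ‖v‖)) • v

section
variable {E : Type} [NormedAddCommGroup E] [NormedSpace ℝ E]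

theorem norm_trunc (τ : ℝ) (hτ : 0 ≤ τ) (v : E) : ‖trunc τ v‖ = min ‖v‖ τ := by
  unfold trunc
  rw [norm_smul, Real.norm_of_nonneg (le_min zero_le_one (div_nonneg hτ (norm_nonneg _)))]
  rcases eq_or_lt_of_le (norm_nonneg v) with h | h
  · rw [← h]; simp [hτ]
  · rw [min_mul_of_nonneg _ _ h.le, one_mul, div_mul_cancel₀ _ h.ne']

theorem trunc_of_le (τ : ℝ) (v : E) (h : ‖v‖ ≤ τ) : trunc τ v = v := by
  unfold trunc
  rcases eq_or_lt_of_le (norm_nonneg v) with h0 | h0
  · have : v = 0 := norm_eq_zero.mp h0.symm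
    simp [this]
  · rw [min_eq_left, one_smul]
    rwa [one_le_div h0]

theorem trunc_lip_aux (τ : ℝ) (hτ : 0 ≤ τ) (u v : E) (huv : ‖v‖ ≤ ‖u‖) :
    ‖trunc τ u - trunc τ v‖ ≤ 2 * ‖u - v‖ := by
  rcases le_total ‖u‖ τ with h | h
  · rw [trunc_of_le τ u h, trunc_of_le τ v (huv.trans h)]
    linarith [norm_nonneg (u - v)]
  · rcases eq_or_lt_of_le (norm_nonneg u) with h0 | h0
    · have hu : u = 0 := norm_eq_zero.mp h0.symm
      have hv : v = 0 := by
        apply norm_eq_zero.mp
        apply le_antisymm _ (norm_nonneg v)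
        rw [hu] at huv; simpa using huv
      simp [hu, hv]
    · set a := min 1 (τ / ‖u‖) with ha
      set c := min 1 (τ / ‖v‖) with hc
      have ha1 : a ≤ 1 := min_le_left _ _
      have ha0 : 0 ≤ a := le_min zero_le_one (div_nonneg hτ (norm_nonneg _))
      have hau : a = τ / ‖u‖ := min_eq_right (by rw [div_le_one h0]; exact h)
      have e1 : trunc τ u - trunc τ v = a • (u - v) - (c - a) • v := by
        unfold trunc
        rw [← ha, ← hc, smul_sub, sub_smul]; abel
      have hcv : c * ‖v‖ ≤ τ := by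
        have := norm_trunc τ hτ v
        unfold trunc at this
        rw [norm_smul, ← hc, Real.norm_of_nonneg
          (le_min zero_le_one (div_nonneg hτ (norm_nonneg _)))] at this
        rw [this]; exact min_le_right _ _
      have hac : a * ‖v‖ ≤ c * ‖v‖ := by
        rcases eq_or_lt_of_le (norm_nonneg v) with hv0 | hv0
        · rw [← hv0]; simp
        · apply mul_le_mul_of_nonneg_right _ hv0.le
          rw [hc]
          apply le_min ha1
          rw [hau]
          exact div_le_div_of_nonneg_left hτ hv0 huv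
      have h3 : ‖(c - a) • v‖ ≤ ‖u - v‖ := by
        rw [norm_smul, Real.norm_eq_abs]
        have h4 : |c - a| * ‖v‖ = c * ‖v‖ - a * ‖v‖ := by
          have : |c - a| * ‖v‖ = |(c - a) * ‖v‖| := by
            rw [abs_mul, abs_of_nonneg (norm_nonneg v)]
          rw [this, sub_mul, abs_of_nonneg (sub_nonneg.mpr hac)]
        rw [h4]
        have h5 : a * ‖u‖ = τ := by rw [hau, div_mul_cancel₀ _ h0.ne']
        have h6 : ‖u‖ - ‖v‖ ≤ ‖u - v‖ := norm_sub_norm_le u v
        have h7 : a * (‖u‖ - ‖v‖) ≤ 1 * (‖u‖ - ‖v‖) :=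
          mul_le_mul_of_nonneg_right ha1 (sub_nonneg.mpr huv)
        nlinarith
      rw [e1]
      refine (norm_sub_le _ _).trans ?_
      have h8 : ‖a • (u - v)‖ ≤ ‖u - v‖ := by
        rw [norm_smul, Real.norm_of_nonneg ha0]
        exact mul_le_of_le_one_left (norm_nonneg _) ha1
      linarith

theorem trunc_lip (τ : ℝ) (hτ : 0 ≤ τ) (u v : E) :
    ‖trunc τ u - trunc τ v‖ ≤ 2 * ‖u - v‖ := by
  rcases le_total ‖v‖ ‖u‖ with h | h
  · exact trunc_lip_aux τ hτ u v h
  · rw [norm_sub_rev, norm_sub_rev u v]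
    exact trunc_lip_aux τ hτ v u h

end

section
variable {X : Type} [Fintype X] [Nonempty X]

noncomputable def lam (P : ℝ) (d : X → X → ℝ) (β : ℝ) (x z : X) : ℝ := (gp d β x z) ^ (1 / P)

theorem lam_nonneg (P : ℝ) (d : X → X → ℝ) (β : ℝ) (x z : X) : 0 ≤ lam P d β x z :=
  Real.rpow_nonneg (gp_pos d β x z).le _

theorem lam_pow {P : ℝ} (hP : 1 ≤ P) (d : X → X → ℝ) (β : ℝ) (x z : X) :
    (lam P d β x z) ^ P = gp d β x z := by
  unfold lam
  rw [← Real.rpow_mul (gp_pos d β x z).le, one_div_mul_cancel (by linarith), Real.rpow_one]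

theorem lam_le {P : ℝ} (hP : 1 ≤ P) (d : X → X → ℝ) (hn : ∀ x y, 0 ≤ d x y)
    (hs : ∀ x y, d x y = d y x)
    (ht : ∀ x y z, d x z ≤ d x y + d y z) (β : ℝ) (hβ : 0 ≤ β) (x y z : X) :
    lam P d β x z ≤ Real.exp (2 * (β * d x y)) * lam P d β y z := by
  have h := gp_le d hs ht β hβ x y z
  unfold lam
  have h1 : (gp d β x z) ^ (1 / P) ≤ (Real.exp (2 * (β * d x y)) * gp d β y z) ^ (1 / P) :=
    Real.rpow_le_rpow (gp_pos d β x z).le h (by positivity)
  refine h1.trans ?_
  rw [Real.mul_rpow (Real.exp_pos _).le (gp_pos d β y z).le]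
  apply mul_le_mul_of_nonneg_right _ (Real.rpow_nonneg (gp_pos d β y z).le _)
  have h2 : (1 : ℝ) ≤ Real.exp (2 * (β * d x y)) :=
    Real.one_le_exp (mul_nonneg (by norm_num) (mul_nonneg hβ (hn x y)))
  have h3 := Real.rpow_le_rpow_of_exponent_le h2 (show 1 / P ≤ 1 by
    rw [div_le_one (by linarith)]; exact hP)
  rwa [Real.rpow_one] at h3

theorem lam_sub_le {P : ℝ} (hP : 1 ≤ P) (d : X → X → ℝ)
    (hn : ∀ x y, 0 ≤ d x y) (hs : ∀ x y, d x y = d y x)
    (ht : ∀ x y z, d x z ≤ d x y + d y z) (β : ℝ) (hβ : 0 ≤ β) (x y z : X)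
    (h1 : β * d x y ≤ 1) :
    |lam P d β x z - lam P d β y z| ≤ 7 * (β * d x y) * lam P d β x z := by
  have hx := lam_nonneg P d β x z
  have hy := lam_nonneg P d β y z
  have hxy := lam_le hP d hn hs ht β hβ x y z
  have hyx := lam_le hP d hn hs ht β hβ y x z
  rw [hs y x] at hyx
  have hb := exp_bound (mul_nonneg hβ (hn x y)) h1
  have ht0 : 0 ≤ 7 * (β * d x y) := mul_nonneg (by norm_num) (mul_nonneg hβ (hn x y))
  rw [abs_le]
  constructor
  · nlinarith
  · rcases le_total (lam P d β y z) (lam P d β x z) with h | h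
    · have e1 : (Real.exp (2 * (β * d x y)) - 1) * lam P d β y z ≤
          7 * (β * d x y) * lam P d β y z := mul_le_mul_of_nonneg_right hb hy
      have e2 : 7 * (β * d x y) * lam P d β y z ≤ 7 * (β * d x y) * lam P d β x z :=
        mul_le_mul_of_nonneg_left h ht0
      linarith
    · have : 0 ≤ 7 * (β * d x y) * lam P d β x z := mul_nonneg ht0 hx
      linarith

end

section
variable {X : Type} [Fintype X] [Nonempty X] {E : Type} [NormedAddCommGroup E] [NormedSpace ℝ E]

/-- upper bound for one level -/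
theorem loc_upper {P : ℝ} (hP : 1 ≤ P) (v : X → E) (β : ℝ) (hβ : 0 < β) (M : ℝ) (hM1 : 1 ≤ M)
    (x y : X) :
    ∑ z, (‖lam P (fun a c => ‖v a - v c‖) β x z • trunc (2 * M / β) (v x - v z) -
        lam P (fun a c => ‖v a - v c‖) β y z • trunc (2 * M / β) (v y - v z)‖ ^ P +
      |lam P (fun a c => ‖v a - v c‖) β x z * (2 * M / β) -
        lam P (fun a c => ‖v a - v c‖) β y z * (2 * M / β)| ^ P) ≤
      2 * (16 * M * ‖v x - v y‖) ^ P := by
  set d : X → X → ℝ := fun a c => ‖v a - v c‖ with hd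
  have hn : ∀ x y, 0 ≤ d x y := fun x y => norm_nonneg _
  have hs : ∀ x y, d x y = d y x := fun x y => norm_sub_rev _ _
  have ht : ∀ x y z, d x z ≤ d x y + d y z := fun x y z => norm_sub_le_norm_sub_add_norm_sub _ _ _
  have hρ : ‖v x - v y‖ = d x y := rfl
  rw [hρ]
  set ρ := d x y with hρ'
  have hρ0 : 0 ≤ ρ := hn x y
  have hM0 : 0 < M := by linarith
  have hP0 : 0 ≤ P := by linarith
  have hτ : 0 ≤ 2 * M / β := by positivity
  set τ := 2 * M / β with hτd
  have hβτ : β * τ = 2 * M := by rw [hτd]; field_simp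
  have htr : ∀ w : E, ‖trunc τ w‖ ≤ τ := fun w => by
    rw [norm_trunc τ hτ]; exact min_le_right _ _
  have hBpos : 0 ≤ 16 * M * ρ := by positivity
  rcases le_total (β * ρ) 1 with h1 | h1
  · -- small case
    have key : ∀ z, (‖lam P d β x z • trunc τ (v x - v z) -
        lam P d β y z • trunc τ (v y - v z)‖ ^ P +
      |lam P d β x z * τ - lam P d β y z * τ| ^ P) ≤
      2 * (16 * M * ρ) ^ P * gp d β x z := by
      intro z
      have hlx := lam_nonneg P d β x z
      have hly := lam_nonneg P d β y z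
      have hdiff := lam_sub_le hP d hn hs ht β hβ.le x y z h1
      have a1 : ‖lam P d β x z • trunc τ (v x - v z) - lam P d β y z • trunc τ (v y - v z)‖ ≤
          16 * M * ρ * lam P d β x z := by
        have e : lam P d β x z • trunc τ (v x - v z) - lam P d β y z • trunc τ (v y - v z) =
            lam P d β x z • (trunc τ (v x - v z) - trunc τ (v y - v z)) +
              (lam P d β x z - lam P d β y z) • trunc τ (v y - v z) := by
          rw [smul_sub, sub_smul]; abel
        rw [e]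
        refine (norm_add_le _ _).trans ?_
        rw [norm_smul, norm_smul, Real.norm_of_nonneg hlx, Real.norm_eq_abs]
        have b1 : ‖trunc τ (v x - v z) - trunc τ (v y - v z)‖ ≤ 2 * ρ := by
          have := trunc_lip τ hτ (v x - v z) (v y - v z)
          rwa [sub_sub_sub_cancel_right] at this
        have b2 := htr (v y - v z)
        have b3 : |lam P d β x z - lam P d β y z| * ‖trunc τ (v y - v z)‖ ≤
            (7 * (β * ρ) * lam P d β x z) * τ :=
          mul_le_mul hdiff b2 (norm_nonneg _) (by positivity)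
        have b4 : (7 * (β * ρ) * lam P d β x z) * τ = 14 * M * ρ * lam P d β x z := by
          have : (7 * (β * ρ) * lam P d β x z) * τ = 7 * ρ * lam P d β x z * (β * τ) := by ring
          rw [this, hβτ]; ring
        have b5 : lam P d β x z * ‖trunc τ (v x - v z) - trunc τ (v y - v z)‖ ≤
            lam P d β x z * (2 * ρ) := mul_le_mul_of_nonneg_left b1 hlx
        have b6 : lam P d β x z * (2 * ρ) ≤ 2 * M * ρ * lam P d β x z := by
          have : 0 ≤ ρ * lam P d β x z := mul_nonneg hρ0 hlx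
          nlinarith
        calc _ ≤ 2 * M * ρ * lam P d β x z + 14 * M * ρ * lam P d β x z := by
              linarith
          _ = 16 * M * ρ * lam P d β x z := by ring
      have a2 : |lam P d β x z * τ - lam P d β y z * τ| ≤ 16 * M * ρ * lam P d β x z := by
        rw [← sub_mul, abs_mul, abs_of_nonneg hτ]
        have b3 : |lam P d β x z - lam P d β y z| * τ ≤ (7 * (β * ρ) * lam P d β x z) * τ :=
          mul_le_mul_of_nonneg_right hdiff hτ
        have b4 : (7 * (β * ρ) * lam P d β x z) * τ = 14 * M * ρ * lam P d β x z := by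
          have : (7 * (β * ρ) * lam P d β x z) * τ = 7 * ρ * lam P d β x z * (β * τ) := by ring
          rw [this, hβτ]; ring
        have : 0 ≤ M * ρ * lam P d β x z := by positivity
        nlinarith
      have c1 := Real.rpow_le_rpow (norm_nonneg _) a1 hP0
      have c2 := Real.rpow_le_rpow (abs_nonneg _) a2 hP0
      rw [Real.mul_rpow hBpos hlx, lam_pow hP] at c1 c2
      linarith
    refine (Finset.sum_le_sum fun z _ => key z).trans ?_
    rw [← Finset.mul_sum, gp_sum, mul_one]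
  · have hτρ : τ ≤ 2 * M * ρ := by
      rw [hτd, div_le_iff₀ hβ]
      nlinarith
    have key : ∀ z, (‖lam P d β x z • trunc τ (v x - v z) -
        lam P d β y z • trunc τ (v y - v z)‖ ^ P +
      |lam P d β x z * τ - lam P d β y z * τ| ^ P) ≤
      2 * ((2 * M * ρ) ^ P * (2 ^ (P - 1) * (gp d β x z + gp d β y z))) := by
      intro z
      have hlx := lam_nonneg P d β x z
      have hly := lam_nonneg P d β y z
      have hB2 : 0 ≤ 2 * M * ρ := by positivity
      have a1 : ‖lam P d β x z • trunc τ (v x - v z) - lam P d β y z • trunc τ (v y - v z)‖ ≤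
          2 * M * ρ * (lam P d β x z + lam P d β y z) := by
        refine (norm_sub_le _ _).trans ?_
        rw [norm_smul, norm_smul, Real.norm_of_nonneg hlx, Real.norm_of_nonneg hly]
        have b1 := mul_le_mul_of_nonneg_left ((htr (v x - v z)).trans hτρ) hlx
        have b2 := mul_le_mul_of_nonneg_left ((htr (v y - v z)).trans hτρ) hly
        linarith
      have a2 : |lam P d β x z * τ - lam P d β y z * τ| ≤
          2 * M * ρ * (lam P d β x z + lam P d β y z) := by
        refine (abs_sub _ _).trans ?_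
        rw [abs_of_nonneg (mul_nonneg hlx hτ), abs_of_nonneg (mul_nonneg hly hτ)]
        have b1 := mul_le_mul_of_nonneg_left hτρ hlx
        have b2 := mul_le_mul_of_nonneg_left hτρ hly
        linarith
      have c1 := Real.rpow_le_rpow (norm_nonneg _) a1 hP0
      have c2 := Real.rpow_le_rpow (abs_nonneg _) a2 hP0
      rw [Real.mul_rpow hB2 (add_nonneg hlx hly)] at c1 c2
      have c3 := add_rpow_le hP hlx hly
      rw [lam_pow hP, lam_pow hP] at c3
      have c4 := mul_le_mul_of_nonneg_left c3 (Real.rpow_nonneg hB2 P)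
      linarith
    refine (Finset.sum_le_sum fun z _ => key z).trans ?_
    rw [← Finset.mul_sum, ← Finset.mul_sum, ← Finset.mul_sum, Finset.sum_add_distrib, gp_sum,
      gp_sum]
    apply mul_le_mul_of_nonneg_left _ (by norm_num)
    have e1 : (2 : ℝ) ^ (P - 1) * (1 + 1) = 2 ^ P := by
      have : (1 : ℝ) + 1 = 2 ^ (1 : ℝ) := by norm_num
      rw [this, ← Real.rpow_add (by norm_num)]
      congr 1; ring
    rw [e1, ← Real.mul_rpow (by positivity) (by norm_num)]
    apply Real.rpow_le_rpow (by positivity) _ hP0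
    nlinarith [mul_nonneg hM0.le hρ0]

theorem loc_lower {P : ℝ} (hP : 1 ≤ P) (v : X → E) (β : ℝ) (hβ : 0 < β) (M : ℝ) (hM1 : 1 ≤ M)
    (x y : X) (hxy : β * ‖v x - v y‖ ≤ 1) :
    2 ^ (1 - P) * ‖v x - v y‖ ^ P * (1 - kap (fun a c => ‖v a - v c‖) β x / M) ≤
    ∑ z, (‖lam P (fun a c => ‖v a - v c‖) β x z • trunc (2 * M / β) (v x - v z) -
        lam P (fun a c => ‖v a - v c‖) β y z • trunc (2 * M / β) (v y - v z)‖ ^ P +
      |lam P (fun a c => ‖v a - v c‖) β x z * (2 * M / β) -
        lam P (fun a c => ‖v a - v c‖) β y z * (2 * M / β)| ^ P) := by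
  set d : X → X → ℝ := fun a c => ‖v a - v c‖ with hd
  have hn : ∀ x y, 0 ≤ d x y := fun x y => norm_nonneg _
  have hM0 : 0 < M := by linarith
  have hP0 : 0 ≤ P := by linarith
  set τ := 2 * M / β with hτd
  have hτ : 0 ≤ τ := by positivity
  have hρ : ‖v x - v y‖ = d x y := rfl
  rw [hρ] at hxy ⊢
  set ρ := d x y with hρ'
  have hρ0 : 0 ≤ ρ := hn x y
  have key : ∀ z, 2 ^ (1 - P) * ρ ^ P * (gp d β x z * (1 - β * d x z / M)) ≤
      (‖lam P d β x z • trunc τ (v x - v z) - lam P d β y z • trunc τ (v y - v z)‖ ^ P +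
      |lam P d β x z * τ - lam P d β y z * τ| ^ P) := by
    intro z
    have hlx := lam_nonneg P d β x z
    have hly := lam_nonneg P d β y z
    have hgp := gp_pos d β x z
    rcases le_total (β * d x z) M with h | h
    · have hdxz : d x z ≤ τ := by
        rw [hτd, le_div_iff₀ hβ]; linarith [mul_comm β (d x z)]
      have hdyz : d y z ≤ τ := by
        have h1 : d y z ≤ ρ + d x z := by
          have := norm_sub_le_norm_sub_add_norm_sub (v y) (v x) (v z)
          rw [norm_sub_rev (v y) (v x)] at this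
          exact this
        rw [hτd, le_div_iff₀ hβ]
        nlinarith
      have t1 : trunc τ (v x - v z) = v x - v z := trunc_of_le τ _ hdxz
      have t2 : trunc τ (v y - v z) = v y - v z := trunc_of_le τ _ hdyz
      rw [t1, t2]
      set a := ‖lam P d β x z • (v x - v z) - lam P d β y z • (v y - v z)‖ with ha
      set c := |lam P d β x z * τ - lam P d β y z * τ| with hc
      have hac : lam P d β x z * ρ ≤ a + c := by
        have e : lam P d β x z • (v x - v y) =
            (lam P d β x z • (v x - v z) - lam P d β y z • (v y - v z)) -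
              (lam P d β x z - lam P d β y z) • (v y - v z) := by
          rw [smul_sub, smul_sub, smul_sub, sub_smul, smul_sub, smul_sub]; abel
        have e2 : lam P d β x z * ρ = ‖lam P d β x z • (v x - v y)‖ := by
          rw [norm_smul, Real.norm_of_nonneg hlx]
        rw [e2, e]
        refine (norm_sub_le _ _).trans ?_
        rw [norm_smul, Real.norm_eq_abs]
        have : |lam P d β x z - lam P d β y z| * ‖v y - v z‖ ≤ c := by
          rw [hc, ← sub_mul, abs_mul, abs_of_nonneg hτ]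
          exact mul_le_mul_of_nonneg_left hdyz (abs_nonneg _)
        linarith
      have h2 := add_rpow_le hP (norm_nonneg _ : 0 ≤ a) (abs_nonneg _ : 0 ≤ c)
      have h3 := Real.rpow_le_rpow (mul_nonneg hlx hρ0) hac hP0
      rw [Real.mul_rpow hlx hρ0, lam_pow hP] at h3
      have h4 : 2 ^ (1 - P) * (gp d β x z * ρ ^ P) ≤ a ^ P + c ^ P := by
        have h5 := h3.trans h2
        have h6 := mul_le_mul_of_nonneg_left h5 (Real.rpow_nonneg (by norm_num : (0:ℝ) ≤ 2) (1 - P))
        rw [← mul_assoc (2 ^ (1 - P) : ℝ) (2 ^ (P - 1)), ← Real.rpow_add (by norm_num)] at h6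
        simpa using h6
      refine le_trans ?_ h4
      have h7 : gp d β x z * (1 - β * d x z / M) ≤ gp d β x z := by
        apply mul_le_of_le_one_right hgp.le
        have : 0 ≤ β * d x z / M := div_nonneg (mul_nonneg hβ.le (hn x z)) hM0.le
        linarith
      have h8 : 0 ≤ (2:ℝ) ^ (1 - P) * ρ ^ P :=
        mul_nonneg (Real.rpow_nonneg (by norm_num) _) (Real.rpow_nonneg hρ0 _)
      calc _ ≤ 2 ^ (1 - P) * ρ ^ P * gp d β x z := mul_le_mul_of_nonneg_left h7 h8
        _ = 2 ^ (1 - P) * (gp d β x z * ρ ^ P) := by ring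
    · have h9 : 2 ^ (1 - P) * ρ ^ P * (gp d β x z * (1 - β * d x z / M)) ≤ 0 := by
        apply mul_nonpos_of_nonneg_of_nonpos
        · exact mul_nonneg (Real.rpow_nonneg (by norm_num) _) (Real.rpow_nonneg hρ0 _)
        · apply mul_nonpos_of_nonneg_of_nonpos hgp.le
          have : 1 ≤ β * d x z / M := by rw [le_div_iff₀ hM0]; linarith
          linarith
      refine h9.trans ?_
      exact add_nonneg (Real.rpow_nonneg (norm_nonneg _) _) (Real.rpow_nonneg (abs_nonneg _) _)
  have hsum := Finset.sum_le_sum (fun z (_ : z ∈ Finset.univ) => key z)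
  refine le_trans (le_of_eq ?_) hsum
  rw [← Finset.mul_sum]
  congr 1
  have : ∀ z, gp d β x z * (1 - β * d x z / M) = gp d β x z - (gp d β x z * (β * d x z)) / M := by
    intro z; ring
  rw [Finset.sum_congr rfl (fun z _ => this z), Finset.sum_sub_distrib, gp_sum,
    ← Finset.sum_div]
  rfl

end

theorem localization (P : ℝ) (hP : 1 ≤ P) {X : Type} [Fintype X] [Nonempty X]
    {E : Type} [NormedAddCommGroup E] [NormedSpace ℝ E] (v : X → E) (b : ℝ) (hb : 0 < b)
    (J : ℕ) (hJ : 0 < J) (M : ℝ) (hM1 : 1 ≤ M)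
    (hM : 4 * (Real.log (Fintype.card X) / J) ≤ M) :
    ∃ (u : X → (Fin J × X) → E) (s : X → (Fin J × X) → ℝ),
      (∀ x, ∑ k, (‖u x k‖ ^ P + |s x k| ^ P) ≤ (2 * M * 2 ^ J / b) ^ P) ∧
      (∀ x y, ∑ k, (‖u x k - u y k‖ ^ P + |s x k - s y k| ^ P) ≤
        (32 * M * ‖v x - v y‖) ^ P) ∧
      (∀ x y, ‖v x - v y‖ ≤ 1 / b → (‖v x - v y‖ / 2) ^ P ≤
        ∑ k, (‖u x k - u y k‖ ^ P + |s x k - s y k| ^ P)) := by
  have hJ' : (0 : ℝ) < J := by exact_mod_cast hJ
  have hM0 : 0 < M := by linarith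
  have hP0 : 0 ≤ P := by linarith
  have hPpos : 0 < P := by linarith
  set d : X → X → ℝ := fun a c => ‖v a - v c‖ with hd
  have hn : ∀ x y, 0 ≤ d x y := fun x y => norm_nonneg _
  set cJ : ℝ := (1 / (J : ℝ)) ^ (1 / P) with hcJ
  have hcJ0 : 0 ≤ cJ := Real.rpow_nonneg (by positivity) _
  have hcJP : cJ ^ P = 1 / J := by
    rw [hcJ, ← Real.rpow_mul (by positivity), one_div_mul_cancel hPpos.ne', Real.rpow_one]
  set u : X → (Fin J × X) → E := fun x k =>
    cJ • (lam P d (b / 2 ^ (k.1 : ℕ)) x k.2 • trunc (2 * M / (b / 2 ^ (k.1 : ℕ))) (v x - v k.2))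
    with hu
  set s : X → (Fin J × X) → ℝ := fun x k =>
    cJ * (lam P d (b / 2 ^ (k.1 : ℕ)) x k.2 * (2 * M / (b / 2 ^ (k.1 : ℕ)))) with hs'
  have hdiff : ∀ x y, ∑ k, (‖u x k - u y k‖ ^ P + |s x k - s y k| ^ P) =
      (1 / (J : ℝ)) * ∑ j : Fin J, ∑ z,
        (‖lam P d (b / 2 ^ (j : ℕ)) x z • trunc (2 * M / (b / 2 ^ (j : ℕ))) (v x - v z) -
          lam P d (b / 2 ^ (j : ℕ)) y z • trunc (2 * M / (b / 2 ^ (j : ℕ))) (v y - v z)‖ ^ P +
        |lam P d (b / 2 ^ (j : ℕ)) x z * (2 * M / (b / 2 ^ (j : ℕ))) -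
          lam P d (b / 2 ^ (j : ℕ)) y z * (2 * M / (b / 2 ^ (j : ℕ)))| ^ P) := by
    intro x y
    rw [Fintype.sum_prod_type, Finset.mul_sum]
    apply Finset.sum_congr rfl
    intro j _
    rw [Finset.mul_sum]
    apply Finset.sum_congr rfl
    intro z _
    simp only [hu, hs']
    rw [← smul_sub, ← mul_sub, norm_smul, Real.norm_of_nonneg hcJ0, abs_mul,
      abs_of_nonneg hcJ0, Real.mul_rpow hcJ0 (norm_nonneg _), Real.mul_rpow hcJ0 (abs_nonneg _),
      hcJP]
    ring
  refine ⟨u, s, ?_, ?_, ?_⟩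
  · intro x
    have hτle : ∀ j : Fin J, 2 * M / (b / 2 ^ (j : ℕ)) ≤ M * 2 ^ J / b := by
      intro j
      have h1 : 2 * M / (b / 2 ^ (j : ℕ)) = M * (2 ^ ((j : ℕ) + 1)) / b := by
        rw [pow_succ]; field_simp
      rw [h1]
      apply div_le_div_of_nonneg_right _ hb.le
      apply mul_le_mul_of_nonneg_left _ hM0.le
      exact pow_le_pow_right₀ (by norm_num) j.2
    have hterm : ∀ k : Fin J × X, ‖u x k‖ ^ P + |s x k| ^ P ≤
        (1 / (J : ℝ)) * (gp d (b / 2 ^ (k.1 : ℕ)) x k.2 * (2 * (M * 2 ^ J / b) ^ P)) := by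
      intro k
      simp only [hu, hs']
      have hl := lam_nonneg P d (b / 2 ^ (k.1 : ℕ)) x k.2
      have hτ0 : 0 ≤ 2 * M / (b / 2 ^ (k.1 : ℕ)) := by positivity
      rw [norm_smul, norm_smul, Real.norm_of_nonneg hcJ0, Real.norm_of_nonneg hl, abs_mul,
        abs_mul, abs_of_nonneg hcJ0, abs_of_nonneg hl, abs_of_nonneg hτ0,
        Real.mul_rpow hcJ0 (by positivity), Real.mul_rpow hcJ0 (by positivity),
        Real.mul_rpow hl (norm_nonneg _), Real.mul_rpow hl hτ0, hcJP, lam_pow hP]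
      have g := (gp_pos d (b / 2 ^ (k.1 : ℕ)) x k.2).le
      have e1 : ‖trunc (2 * M / (b / 2 ^ (k.1 : ℕ))) (v x - v k.2)‖ ≤ M * 2 ^ J / b := by
        rw [norm_trunc _ hτ0]
        exact (min_le_right _ _).trans (hτle k.1)
      have e2 := Real.rpow_le_rpow (norm_nonneg _) e1 hP0
      have e3 := Real.rpow_le_rpow hτ0 (hτle k.1) hP0
      have e4 : 0 ≤ 1 / (J : ℝ) * gp d (b / 2 ^ (k.1 : ℕ)) x k.2 := by positivity
      nlinarith
    refine (Finset.sum_le_sum fun k _ => hterm k).trans ?_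
    rw [← Finset.mul_sum, Fintype.sum_prod_type]
    simp only [← Finset.sum_mul, gp_sum]
    simp only [Finset.sum_const, Finset.card_univ, Fintype.card_fin, nsmul_eq_mul]
    have e5 : 1 / (J : ℝ) * (J * 1 * (2 * (M * 2 ^ J / b) ^ P)) = 2 * (M * 2 ^ J / b) ^ P := by
      field_simp
    rw [e5]
    have e6 : (2 * M * 2 ^ J / b) = 2 * (M * 2 ^ J / b) := by ring
    rw [e6, Real.mul_rpow (by norm_num) (by positivity)]
    apply mul_le_mul_of_nonneg_right _ (Real.rpow_nonneg (by positivity) _)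
    have := Real.rpow_le_rpow_of_exponent_le (by norm_num : (1:ℝ) ≤ 2) hP
    rwa [Real.rpow_one] at this
  · intro x y
    rw [hdiff]
    have h1 : ∀ j : Fin J, ∑ z,
        (‖lam P d (b / 2 ^ (j : ℕ)) x z • trunc (2 * M / (b / 2 ^ (j : ℕ))) (v x - v z) -
          lam P d (b / 2 ^ (j : ℕ)) y z • trunc (2 * M / (b / 2 ^ (j : ℕ))) (v y - v z)‖ ^ P +
        |lam P d (b / 2 ^ (j : ℕ)) x z * (2 * M / (b / 2 ^ (j : ℕ))) -
          lam P d (b / 2 ^ (j : ℕ)) y z * (2 * M / (b / 2 ^ (j : ℕ)))| ^ P) ≤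
        2 * (16 * M * ‖v x - v y‖) ^ P := by
      intro j
      exact loc_upper hP v (b / 2 ^ (j : ℕ)) (by positivity) M hM1 x y
    have h2 := Finset.sum_le_sum (fun j (_ : j ∈ Finset.univ) => h1 j)
    have h3 := mul_le_mul_of_nonneg_left h2 (show 0 ≤ 1 / (J : ℝ) by positivity)
    refine h3.trans ?_
    simp only [Finset.sum_const, Finset.card_univ, Fintype.card_fin, nsmul_eq_mul]
    have e5 : 1 / (J : ℝ) * (J * (2 * (16 * M * ‖v x - v y‖) ^ P)) =
        2 * (16 * M * ‖v x - v y‖) ^ P := by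
      field_simp
    rw [e5]
    have e6 : (32 * M * ‖v x - v y‖) = 2 * (16 * M * ‖v x - v y‖) := by ring
    have e7 : 0 ≤ 16 * M * ‖v x - v y‖ := mul_nonneg (by linarith) (norm_nonneg _)
    rw [e6, Real.mul_rpow (by norm_num : (0:ℝ) ≤ 2) e7]
    apply mul_le_mul_of_nonneg_right _ (Real.rpow_nonneg e7 _)
    have := Real.rpow_le_rpow_of_exponent_le (by norm_num : (1:ℝ) ≤ 2) hP
    rwa [Real.rpow_one] at this
  · intro x y hxy
    rw [hdiff]
    have hbd : b * ‖v x - v y‖ ≤ 1 := by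
      rw [le_div_iff₀ hb] at hxy
      linarith [mul_comm b ‖v x - v y‖]
    have h1 : ∀ j : Fin J, 2 ^ (1 - P) * ‖v x - v y‖ ^ P * (1 - kap d (b / 2 ^ (j : ℕ)) x / M) ≤
        ∑ z,
        (‖lam P d (b / 2 ^ (j : ℕ)) x z • trunc (2 * M / (b / 2 ^ (j : ℕ))) (v x - v z) -
          lam P d (b / 2 ^ (j : ℕ)) y z • trunc (2 * M / (b / 2 ^ (j : ℕ))) (v y - v z)‖ ^ P +
        |lam P d (b / 2 ^ (j : ℕ)) x z * (2 * M / (b / 2 ^ (j : ℕ))) -
          lam P d (b / 2 ^ (j : ℕ)) y z * (2 * M / (b / 2 ^ (j : ℕ)))| ^ P) := by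
      intro j
      apply loc_lower hP v (b / 2 ^ (j : ℕ)) (by positivity) M hM1 x y
      refine le_trans ?_ hbd
      apply mul_le_mul_of_nonneg_right _ (norm_nonneg _)
      exact div_le_self hb.le (one_le_pow₀ (by norm_num))
    have h2 := Finset.sum_le_sum (fun j (_ : j ∈ Finset.univ) => h1 j)
    have h3 := mul_le_mul_of_nonneg_left h2 (show 0 ≤ 1 / (J : ℝ) by positivity)
    refine le_trans ?_ h3
    rw [← Finset.mul_sum, Finset.sum_sub_distrib, ← Finset.sum_div]
    have hk := kap_sum d (fun x => by simp [hd]) hn b hb J x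
    rw [Finset.sum_range] at hk
    simp only [Finset.sum_const, Finset.card_univ, Fintype.card_fin, nsmul_eq_mul, mul_one]
    set S := ∑ i : Fin J, kap d (b / 2 ^ (i : ℕ)) x with hS
    have hSM : S / M ≤ J / 2 := by
      rw [div_le_iff₀ hM0]
      have : 4 * Real.log (Fintype.card X) ≤ M * J := by
        have := mul_le_mul_of_nonneg_right hM hJ'.le
        have e : 4 * (Real.log (Fintype.card X) / J) * J = 4 * Real.log (Fintype.card X) := by
          field_simp
        linarith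
      linarith
    have hpos : 0 ≤ (2:ℝ) ^ (1 - P) * ‖v x - v y‖ ^ P :=
      mul_nonneg (Real.rpow_nonneg (by norm_num) _) (Real.rpow_nonneg (norm_nonneg _) _)
    have h4 : (1 / (J : ℝ)) * (2 ^ (1 - P) * ‖v x - v y‖ ^ P * (J / 2)) ≤
        (1 / (J : ℝ)) * (2 ^ (1 - P) * ‖v x - v y‖ ^ P * (J - S / M)) := by
      apply mul_le_mul_of_nonneg_left _ (by positivity)
      apply mul_le_mul_of_nonneg_left _ hpos
      linarith
    refine le_trans (le_of_eq ?_) h4
    have e7 : (1 / (J : ℝ)) * (2 ^ (1 - P) * ‖v x - v y‖ ^ P * (J / 2)) =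
        (2 ^ (1 - P) / 2) * ‖v x - v y‖ ^ P := by
      field_simp
    rw [e7, Real.div_rpow (norm_nonneg _) (by norm_num)]
    have e8 : (2:ℝ) ^ (1 - P) / 2 = 1 / 2 ^ P := by
      rw [Real.rpow_sub (by norm_num), Real.rpow_one]
      field_simp
    rw [e8]
    ring

end Vale.Agent.P249
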