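import Mathlib
import Vale.Agent.P249.Local

namespace Vale.Agent.P249

theorem add_rpow_ge {P : ℝ} (hP : 1 ≤ P) {a b : ℝ} (ha : 0 ≤ a) (hb : 0 ≤ b) :
    a ^ P + b ^ P ≤ (a + b) ^ P := by
  lift a to NNReal using ha
  lift b to NNReal using hb
  exact_mod_cast NNReal.add_rpow_le_rpow_add a b hP

theorem sum_rpow_le {P : ℝ} (hP : 1 ≤ P) {ι : Type} (s : Finset ι) (f : ι → ℝ)
    (hf : ∀ i ∈ s, 0 ≤ f i) : ∑ i ∈ s, f i ^ P ≤ (∑ i ∈ s, f i) ^ P := by
  classical
  induction s using Finset.induction_on with
  | empty => simp [Real.zero_rpow (by linarith : P ≠ 0)]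
  | insert a s ha ih =>
    rw [Finset.sum_insert ha, Finset.sum_insert ha]
    have h1 := ih (fun i hi => hf i (Finset.mem_insert_of_mem hi))
    have h2 := add_rpow_ge hP (hf a (Finset.mem_insert_self a s))
      (Finset.sum_nonneg (fun i hi => hf i (Finset.mem_insert_of_mem hi)))
    linarith

noncomputable def lad : ℕ → ℝ → ℕ → ℝ → ℝ
  | 0, R, 0, a => min a R
  | 0, _, (_ + 1), _ => 0
  | (_ + 1), R, 0, a => min (max (a - R / 2) 0) (R / 2)
  | (U + 1), R, (u + 1), a => lad U (R / 2) u a

noncomputable def ssz : ℕ → ℝ → ℕ → ℝ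
  | 0, R, _ => R
  | (_ + 1), R, 0 => R / 2
  | (U + 1), R, (u + 1) => ssz U (R / 2) u

theorem ssz_pos (U : ℕ) : ∀ (R : ℝ) (u : ℕ), 0 < R → 0 < ssz U R u := by
  induction U with
  | zero => intro R u hR; cases u <;> simpa [ssz] using hR
  | succ U ih =>
    intro R u hR
    cases u with
    | zero => simp only [ssz]; linarith
    | succ u => simp only [ssz]; exact ih _ _ (by linarith)

theorem ssz_le (U : ℕ) : ∀ (R : ℝ) (u : ℕ), 0 < R → ssz U R u ≤ R := by
  induction U with
  | zero => intro R u hR; cases u <;> simp [ssz]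
  | succ U ih =>
    intro R u hR
    cases u with
    | zero => simp only [ssz]; linarith
    | succ u => simp only [ssz]; exact (ih _ _ (by linarith)).trans (by linarith)

theorem lad_nonneg (U : ℕ) : ∀ (R : ℝ) (u : ℕ) (a : ℝ), 0 < R → 0 ≤ a → 0 ≤ lad U R u a := by
  induction U with
  | zero =>
    intro R u a hR ha
    cases u with
    | zero => simp only [lad]; exact le_min ha hR.le
    | succ u => simp only [lad]; exact le_refl _
  | succ U ih =>
    intro R u a hR ha
    cases u with
    | zero => simp only [lad]; exact le_min (le_max_right _ _) (by linarith)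
    | succ u => simp only [lad]; exact ih _ _ _ (by linarith) ha

theorem lad_le (U : ℕ) : ∀ (R : ℝ) (u : ℕ) (a : ℝ), 0 < R → lad U R u a ≤ ssz U R u := by
  induction U with
  | zero =>
    intro R u a hR
    cases u with
    | zero => simp only [lad, ssz]; exact min_le_right _ _
    | succ u => simp only [lad, ssz]; exact hR.le
  | succ U ih =>
    intro R u a hR
    cases u with
    | zero => simp only [lad, ssz]; exact min_le_right _ _
    | succ u => simp only [lad, ssz]; exact ih _ _ _ (by linarith)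

theorem lad_mono (U : ℕ) : ∀ (R : ℝ) (u : ℕ) (a b : ℝ), a ≤ b → lad U R u a ≤ lad U R u b := by
  induction U with
  | zero =>
    intro R u a b hab
    cases u with
    | zero => simp only [lad]; exact min_le_min hab le_rfl
    | succ u => simp only [lad]; exact le_refl _
  | succ U ih =>
    intro R u a b hab
    cases u with
    | zero =>
      simp only [lad]
      exact min_le_min (max_le_max (by linarith) le_rfl) le_rfl
    | succ u => simp only [lad]; exact ih _ _ _ _ hab

theorem lad_sum (U : ℕ) : ∀ (R a : ℝ), 0 < R → 0 ≤ a →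
    ∑ u ∈ Finset.range (U + 1), lad U R u a = min a R := by
  induction U with
  | zero => intro R a _ _; simp [lad]
  | succ U ih =>
    intro R a hR ha
    rw [Finset.sum_range_succ']
    simp only [lad]
    rw [ih (R / 2) a (by linarith) ha]
    rcases le_total a (R / 2) with h | h
    · rw [min_eq_left h, max_eq_right (by linarith), min_eq_left (by linarith),
        min_eq_left (by linarith)]
      ring
    · rw [min_eq_right h, max_eq_left (by linarith)]
      rcases le_total a R with h2 | h2
      · rw [min_eq_left (by linarith), min_eq_left h2]; ring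
      · rw [min_eq_right (by linarith), min_eq_right h2]; ring

/-- sums of differences -/
theorem lad_upper {P : ℝ} (hP : 1 ≤ P) (U : ℕ) (R a b : ℝ) (hR : 0 < R) (ha : 0 ≤ a)
    (haR : a ≤ R) (hb : 0 ≤ b) (hbR : b ≤ R) :
    ∑ u ∈ Finset.range (U + 1), |lad U R u a - lad U R u b| ^ P ≤ |a - b| ^ P := by
  wlog hab : b ≤ a with H
  · have := H hP U R b a hR hb hbR ha haR (le_of_lt (not_le.mp hab))
    rw [abs_sub_comm a b]
    refine le_trans (le_of_eq ?_) this
    apply Finset.sum_congr rfl
    intro u _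
    rw [abs_sub_comm]
  have h1 : ∀ u ∈ Finset.range (U + 1), |lad U R u a - lad U R u b| ^ P =
      (lad U R u a - lad U R u b) ^ P := by
    intro u _
    rw [abs_of_nonneg (sub_nonneg.mpr (lad_mono U R u b a hab))]
  rw [Finset.sum_congr rfl h1]
  refine (sum_rpow_le hP _ _ (fun u _ => sub_nonneg.mpr (lad_mono U R u b a hab))).trans ?_
  rw [Finset.sum_sub_distrib, lad_sum U R a hR ha, lad_sum U R b hR hb, min_eq_left haR,
    min_eq_left hbR, abs_of_nonneg (by linarith)]

theorem lad_top {P : ℝ} (hP : 1 ≤ P) (U : ℕ) (R a b : ℝ) (hR : 0 < R) (ha : R ≤ a)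
    (hb : 0 ≤ b) (hbR : b ≤ R) :
    ((R - b) / 2) ^ P ≤ ∑ u ∈ Finset.range (U + 1), (lad U R u a - lad U R u b) ^ P := by
  have hP0 : 0 ≤ P := by linarith
  have hnn : ∀ u, 0 ≤ lad U R u a - lad U R u b := fun u =>
    sub_nonneg.mpr (lad_mono U R u b a (hbR.trans ha))
  have h0 : (lad U R 0 a - lad U R 0 b) ^ P ≤
      ∑ u ∈ Finset.range (U + 1), (lad U R u a - lad U R u b) ^ P :=
    Finset.single_le_sum (f := fun u => (lad U R u a - lad U R u b) ^ P)
      (fun u _ => Real.rpow_nonneg (hnn u) P) (Finset.mem_range.mpr (Nat.succ_pos U))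
  refine le_trans ?_ h0
  apply Real.rpow_le_rpow (by linarith) _ hP0
  cases U with
  | zero =>
    simp only [lad]
    rw [min_eq_right ha, min_eq_left hbR]
    linarith
  | succ U =>
    simp only [lad]
    rw [max_eq_left (by linarith : (0:ℝ) ≤ a - R / 2), min_eq_right (by linarith)]
    rcases le_total b (R / 2) with h | h
    · rw [max_eq_right (by linarith), min_eq_left (by linarith)]
      linarith
    · rw [max_eq_left (by linarith), min_eq_left (by linarith)]
      linarith

theorem lad_lower_aux {P : ℝ} (hP : 1 ≤ P) (U : ℕ) : ∀ (R a b : ℝ), 0 < R → 0 ≤ b → b ≤ a →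
    (1 / 4 : ℝ) ^ P * (min a R - min b R) ^ P ≤
      ∑ u ∈ Finset.range (U + 1), (lad U R u a - lad U R u b) ^ P := by
  have hP0 : 0 ≤ P := by linarith
  have h14 : (1 / 4 : ℝ) ^ P ≤ 1 := Real.rpow_le_one (by norm_num) (by norm_num) hP0
  induction U with
  | zero =>
    intro R a b hR hb hab
    simp only [zero_add, Finset.sum_range_one, lad]
    have : 0 ≤ (min a R - min b R) ^ P :=
      Real.rpow_nonneg (sub_nonneg.mpr (min_le_min hab le_rfl)) _
    nlinarith
  | succ U ih =>
    intro R a b hR hb hab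
    have hR2 : 0 < R / 2 := by linarith
    rw [Finset.sum_range_succ']
    simp only [lad]
    have hrest : 0 ≤ ∑ u ∈ Finset.range (U + 1), (lad U (R / 2) u a - lad U (R / 2) u b) ^ P :=
      Finset.sum_nonneg fun u _ =>
        Real.rpow_nonneg (sub_nonneg.mpr (lad_mono U _ u b a hab)) _
    rcases le_total (R / 2) b with h | h
    · -- both above R/2
      rw [max_eq_left (by linarith : (0:ℝ) ≤ a - R / 2),
        max_eq_left (by linarith : (0:ℝ) ≤ b - R / 2)]
      have e : min (a - R / 2) (R / 2) - min (b - R / 2) (R / 2) = min a R - min b R := by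
        have h1 : ∀ c : ℝ, min (c - R / 2) (R / 2) = min c R - R / 2 := by
          intro c
          have := min_sub_sub_right c R (R / 2)
          rw [← this]
          congr 1
          ring
        rw [h1, h1]; ring
      rw [e]
      have : 0 ≤ (min a R - min b R) ^ P :=
        Real.rpow_nonneg (sub_nonneg.mpr (min_le_min hab le_rfl)) _
      nlinarith
    · rcases le_total a (R / 2) with h2 | h2
      · rw [max_eq_right (by linarith : a - R / 2 ≤ 0), max_eq_right (by linarith)]
        have e := ih (R / 2) a b hR2 hb hab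
        rw [min_eq_left h2, min_eq_left h] at e
        rw [min_eq_left (by linarith : a ≤ R), min_eq_left (by linarith : b ≤ R)]
        rw [sub_self, Real.zero_rpow (by linarith)]
        linarith
      · rw [max_eq_left (by linarith : (0:ℝ) ≤ a - R / 2),
          max_eq_right (by linarith : b - R / 2 ≤ 0),
          min_eq_left (by linarith : (0:ℝ) ≤ R / 2), sub_zero]
        have e := lad_top hP U (R / 2) a b hR2 h2 hb h
        have h1 : min (a - R / 2) (R / 2) = min a R - R / 2 := by
          have := min_sub_sub_right a R (R / 2)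
          rw [← this]
          congr 1
          ring
        rw [h1]
        set α := min a R - R / 2 with hα
        have hα0 : 0 ≤ α := by
          rw [hα]
          have : R / 2 ≤ min a R := le_min h2 (by linarith)
          linarith
        set γ := R / 2 - b with hγ
        have hγ0 : 0 ≤ γ := by rw [hγ]; linarith
        have e2 : min a R - min b R = α + γ := by
          rw [min_eq_left (by linarith : b ≤ R)]; rw [hα, hγ]; ring
        rw [e2]
        have e3 := add_rpow_le hP hα0 hγ0
        have e4 : (γ / 2) ^ P = (1 / 2) ^ P * γ ^ P := by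
          rw [← Real.mul_rpow (by norm_num) hγ0]; congr 1; ring
        rw [e4] at e
        have e5 : (1 / 4 : ℝ) ^ P * (2 ^ (P - 1) * (α ^ P + γ ^ P)) ≤
            (1 / 2) ^ P * (α ^ P + γ ^ P) := by
          rw [← mul_assoc]
          apply mul_le_mul_of_nonneg_right _
            (add_nonneg (Real.rpow_nonneg hα0 _) (Real.rpow_nonneg hγ0 _))
          have h5 : (1 / 4 : ℝ) ^ P = (1 / 2) ^ P * (1 / 2) ^ P := by
            rw [← Real.mul_rpow (by norm_num) (by norm_num)]; norm_num
          have h6 : (1 / 2 : ℝ) ^ P * 2 ^ (P - 1) ≤ 1 := by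
            have h7 : (2 : ℝ) ^ (P - 1) ≤ 2 ^ P :=
              Real.rpow_le_rpow_of_exponent_le (by norm_num) (by linarith)
            have h8 : (1 / 2 : ℝ) ^ P * 2 ^ P = 1 := by
              rw [← Real.mul_rpow (by norm_num) (by norm_num)]; norm_num
            have h9 : (0:ℝ) ≤ (1 / 2) ^ P := Real.rpow_nonneg (by norm_num) _
            nlinarith
          have h9 : (0:ℝ) ≤ (1 / 2) ^ P := Real.rpow_nonneg (by norm_num) _
          rw [h5, mul_assoc]
          exact mul_le_of_le_one_right h9 h6
        have e6 : (1 / 4 : ℝ) ^ P * (α + γ) ^ P ≤ (1 / 4 : ℝ) ^ P *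
            (2 ^ (P - 1) * (α ^ P + γ ^ P)) :=
          mul_le_mul_of_nonneg_left e3 (Real.rpow_nonneg (by norm_num) _)
        have e7 : (1 / 2 : ℝ) ^ P * α ^ P ≤ α ^ P :=
          mul_le_of_le_one_left (Real.rpow_nonneg hα0 _)
            (Real.rpow_le_one (by norm_num) (by norm_num) hP0)
        linarith

theorem lad_lower {P : ℝ} (hP : 1 ≤ P) (U : ℕ) (R a b : ℝ) (hR : 0 < R) (ha : 0 ≤ a)
    (haR : a ≤ R) (hb : 0 ≤ b) (hbR : b ≤ R) :
    (1 / 4 : ℝ) ^ P * |a - b| ^ P ≤
      ∑ u ∈ Finset.range (U + 1), |lad U R u a - lad U R u b| ^ P := by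
  wlog hab : b ≤ a with H
  · have := H hP U R b a hR hb hbR ha haR (le_of_lt (not_le.mp hab))
    rw [abs_sub_comm a b]
    refine le_trans this (le_of_eq ?_)
    apply Finset.sum_congr rfl
    intro u _
    rw [abs_sub_comm]
  have h1 : ∀ u ∈ Finset.range (U + 1), |lad U R u a - lad U R u b| ^ P =
      (lad U R u a - lad U R u b) ^ P := by
    intro u _
    rw [abs_of_nonneg (sub_nonneg.mpr (lad_mono U R u b a hab))]
  rw [Finset.sum_congr rfl h1]
  have := lad_lower_aux hP U R a b hR hb hab
  rwa [min_eq_left haR, min_eq_left hbR, ← abs_of_nonneg (sub_nonneg.mpr hab)] at this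

theorem two_half_rpow {P : ℝ} (hP : 1 ≤ P) (R : ℝ) (hR : 0 < R) :
    2 * (R / 2) ^ P ≤ R ^ P := by
  have h := add_rpow_ge hP (by linarith : 0 ≤ R / 2) (by linarith : 0 ≤ R / 2)
  rw [add_halves] at h
  linarith

theorem ssz_sum {P : ℝ} (hP : 1 ≤ P) (U : ℕ) : ∀ R : ℝ, 0 < R →
    ∑ u ∈ Finset.range (U + 1), ssz U R u ^ P ≤ R ^ P + (R / 2 ^ U) ^ P := by
  induction U with
  | zero =>
    intro R hR
    simp only [zero_add, Finset.sum_range_one, ssz, pow_zero, div_one]
    linarith [Real.rpow_nonneg hR.le P]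
  | succ U ih =>
    intro R hR
    rw [Finset.sum_range_succ']
    simp only [ssz]
    have h1 := ih (R / 2) (by linarith)
    have h2 := two_half_rpow hP R hR
    have h3 : R / 2 / 2 ^ U = R / 2 ^ (U + 1) := by rw [pow_succ]; field_simp
    rw [h3] at h1
    linarith

noncomputable def actv (P : ℝ) (U : ℕ) (R : ℝ) (u : ℕ) (a : ℝ) : ℝ :=
  if lad U R u a = 0 then 0 else ssz U R u ^ P

theorem actv_succ (P : ℝ) (U : ℕ) (R : ℝ) (u : ℕ) (a : ℝ) :
    actv P (U + 1) R (u + 1) a = actv P U (R / 2) u a := rfl

theorem actv_le (P : ℝ) (U : ℕ) (R : ℝ) (u : ℕ) (a : ℝ) (hR : 0 < R) :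
    actv P U R u a ≤ ssz U R u ^ P := by
  unfold actv
  split_ifs
  · exact Real.rpow_nonneg (ssz_pos U _ u hR).le _
  · exact le_refl _

theorem lad_sparse {P : ℝ} (hP : 1 ≤ P) (U : ℕ) : ∀ (R a : ℝ), 0 < R → 0 ≤ a →
    ∑ u ∈ Finset.range (U + 1), actv P U R u a ≤
      2 * a ^ P + (R / 2 ^ U) ^ P := by
  induction U with
  | zero =>
    intro R a hR ha
    have h0 := actv_le P 0 R 0 a hR
    simp only [ssz] at h0
    simp only [zero_add, Finset.sum_range_one, pow_zero, div_one]
    have h1 : 0 ≤ a ^ P := Real.rpow_nonneg ha _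
    linarith
  | succ U ih =>
    intro R a hR ha
    have hR2 : 0 < R / 2 := by linarith
    have h3 : R / 2 / 2 ^ U = R / 2 ^ (U + 1) := by rw [pow_succ]; field_simp
    rw [Finset.sum_range_succ']
    simp only [actv_succ]
    rcases le_total a (R / 2) with h | h
    · have e : lad (U + 1) R 0 a = 0 := by
        simp only [lad]
        rw [max_eq_right (by linarith : a - R / 2 ≤ 0), min_eq_left (by linarith)]
      have e2 : actv P (U + 1) R 0 a = 0 := by
        unfold actv
        rw [if_pos e]
      rw [e2]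
      have := ih (R / 2) a hR2 ha
      rw [h3] at this
      linarith
    · have h1 : ∑ u ∈ Finset.range (U + 1), actv P U (R / 2) u a ≤
          ∑ u ∈ Finset.range (U + 1), ssz U (R / 2) u ^ P :=
        Finset.sum_le_sum fun u _ => actv_le P U (R / 2) u a hR2
      have h2 := ssz_sum hP U (R / 2) hR2
      rw [h3] at h2
      have h4 : actv P (U + 1) R 0 a ≤ (R / 2) ^ P := actv_le P (U + 1) R 0 a hR
      have h5 : (R / 2) ^ P ≤ a ^ P := Real.rpow_le_rpow hR2.le h (by linarith)
      linarith

end Vale.Agent.P249
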