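import Mathlib

namespace Vale.Agent.P249

section mxdef
variable {ι : Type} [Fintype ι]

noncomputable def mx (f : ι → ℝ) : ℝ :=
  (Finset.univ : Finset (Option ι)).sup' Finset.univ_nonempty (fun o => o.elim 0 f)

theorem mx_nonneg (f : ι → ℝ) : 0 ≤ mx f :=
  Finset.le_sup' (fun o : Option ι => o.elim 0 f) (Finset.mem_univ none)

theorem le_mx (f : ι → ℝ) (i : ι) : f i ≤ mx f :=
  Finset.le_sup' (fun o : Option ι => o.elim 0 f) (Finset.mem_univ (some i))

theorem mx_eq (f : ι → ℝ) : mx f = 0 ∨ ∃ i, mx f = f i := by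
  obtain ⟨o, _, ho⟩ := Finset.exists_mem_eq_sup' (Finset.univ_nonempty : (Finset.univ : Finset (Option ι)).Nonempty)
    (fun o : Option ι => o.elim 0 f)
  cases o with
  | none => left; exact ho
  | some i => right; exact ⟨i, ho⟩

theorem mx_le (f : ι → ℝ) (c : ℝ) (hc : 0 ≤ c) (h : ∀ i, f i ≤ c) : mx f ≤ c := by
  rcases mx_eq f with h1 | ⟨i, h1⟩
  · rw [h1]; exact hc
  · rw [h1]; exact h i

theorem mx_single (f : ι → ℝ) (i : ι) (hi : 0 ≤ f i) (h : ∀ j, j ≠ i → f j = 0) :
    mx f = f i := by
  apply le_antisymm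
  · apply mx_le f _ hi
    intro j
    by_cases hj : j = i
    · rw [hj]
    · rw [h j hj]; exact hi
  · exact le_mx f i

theorem mx_sub_aux {P : ℝ} (hP : 1 ≤ P) (f h : ι → ℝ) (hfh : mx h ≤ mx f) :
    |mx f - mx h| ^ P ≤ ∑ i, |f i - h i| ^ P := by
  have hP0 : 0 ≤ P := by linarith
  have hnn : ∀ i ∈ (Finset.univ : Finset ι), 0 ≤ |f i - h i| ^ P := fun i _ =>
    Real.rpow_nonneg (abs_nonneg _) _
  rcases mx_eq f with h1 | ⟨i, h1⟩
  · have h2 : mx h = 0 := le_antisymm (h1 ▸ hfh) (mx_nonneg h)
    rw [h1, h2, sub_self, abs_zero, Real.zero_rpow (by linarith)]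
    exact Finset.sum_nonneg hnn
  · have h2 : |mx f - mx h| ≤ |f i - h i| := by
      rw [abs_of_nonneg (sub_nonneg.mpr hfh)]
      refine le_trans ?_ (le_abs_self _)
      rw [h1]
      linarith [le_mx h i]
    refine (Real.rpow_le_rpow (abs_nonneg _) h2 hP0).trans ?_
    exact Finset.single_le_sum hnn (Finset.mem_univ i)

theorem mx_sub {P : ℝ} (hP : 1 ≤ P) (f h : ι → ℝ) :
    |mx f - mx h| ^ P ≤ ∑ i, |f i - h i| ^ P := by
  rcases le_total (mx h) (mx f) with hh | hh
  · exact mx_sub_aux hP f h hh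
  · have := mx_sub_aux hP h f hh
    rw [abs_sub_comm]
    refine this.trans (le_of_eq ?_)
    apply Finset.sum_congr rfl
    intro i _
    rw [abs_sub_comm]

end mxdef

theorem prod_one_sub_ge {ι : Type} (T : Finset ι) (θ : ι → ℝ) (h0 : ∀ i ∈ T, 0 ≤ θ i)
    (h1 : ∀ i ∈ T, θ i ≤ 1) : 1 - ∑ i ∈ T, θ i ≤ ∏ i ∈ T, (1 - θ i) := by
  classical
  induction T using Finset.induction_on with
  | empty => simp
  | insert a s ha ih =>
    rw [Finset.sum_insert ha, Finset.prod_insert ha]
    have h2 := ih (fun i hi => h0 i (Finset.mem_insert_of_mem hi))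
      (fun i hi => h1 i (Finset.mem_insert_of_mem hi))
    have h3 : ∏ i ∈ s, (1 - θ i) ≤ 1 := by
      apply Finset.prod_le_one
      · intro i hi
        linarith [h1 i (Finset.mem_insert_of_mem hi)]
      · intro i hi
        linarith [h0 i (Finset.mem_insert_of_mem hi)]
    have h4 := h0 a (Finset.mem_insert_self a s)
    nlinarith

section prob
variable {ι : Type} [Fintype ι] [DecidableEq ι]

theorem sum_prod_bool (F : ι → Bool → ℝ) :
    ∑ ω : ι → Bool, ∏ j, F j (ω j) = ∏ j, (F j true + F j false) := by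
  have h := Finset.prod_univ_sum (fun _ : ι => (Finset.univ : Finset Bool)) F
  rw [Fintype.piFinset_univ] at h
  rw [← h]
  apply Finset.prod_congr rfl
  intro j _
  rw [Fintype.sum_bool]

noncomputable def wt (θ : ι → ℝ) (ω : ι → Bool) : ℝ := ∏ j, (if ω j then θ j else 1 - θ j)

omit [DecidableEq ι] in
theorem wt_nonneg (θ : ι → ℝ) (h0 : ∀ i, 0 ≤ θ i) (h1 : ∀ i, θ i ≤ 1) (ω : ι → Bool) :
    0 ≤ wt θ ω := by
  apply Finset.prod_nonneg
  intro j _
  split_ifs
  · exact h0 j
  · linarith [h1 j]

theorem wt_sum (θ : ι → ℝ) : ∑ ω, wt θ ω = 1 := by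
  unfold wt
  rw [sum_prod_bool (fun j b => if b then θ j else 1 - θ j)]
  simp

noncomputable def ev (S : Finset ι) (i : ι) (ω : ι → Bool) : ℝ :=
  if (ω i = true ∧ ∀ j ∈ S, j ≠ i → ω j = false) then 1 else 0

theorem ev_prob (θ : ι → ℝ) (S : Finset ι) (i : ι) :
    ∑ ω, wt θ ω * ev S i ω = θ i * ∏ j ∈ S.erase i, (1 - θ j) := by
  have h1 : ∀ ω, wt θ ω * ev S i ω = ∏ j, (if ω j then θ j else 1 - θ j) *
      (if j = i then (if ω j then 1 else 0) else if j ∈ S then (if ω j then 0 else 1) else 1) := by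
    intro ω
    rw [Finset.prod_mul_distrib]
    unfold wt
    congr 1
    unfold ev
    split_ifs with h
    · symm
      apply Finset.prod_eq_one
      intro j _
      by_cases hj : j = i
      · rw [if_pos hj, hj, h.1]; simp
      · rw [if_neg hj]
        by_cases hjS : j ∈ S
        · rw [if_pos hjS, h.2 j hjS hj]; simp
        · rw [if_neg hjS]
    · symm
      by_cases hi : ω i = true
      · have : ∃ j ∈ S, j ≠ i ∧ ω j ≠ false := by
          by_contra hcon
          push Not at hcon
          exact h ⟨hi, hcon⟩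
        obtain ⟨j, hjS, hji, hj⟩ := this
        apply Finset.prod_eq_zero (Finset.mem_univ j)
        rw [if_neg hji, if_pos hjS]
        simp at hj
        rw [hj]; simp
      · apply Finset.prod_eq_zero (Finset.mem_univ i)
        simp at hi
        rw [if_pos rfl, hi]; simp
  rw [Finset.sum_congr rfl (fun ω _ => h1 ω)]
  rw [sum_prod_bool (fun j b => (if b then θ j else 1 - θ j) *
      (if j = i then (if b then 1 else 0) else if j ∈ S then (if b then 0 else 1) else 1))]
  have h2 : ∀ j, ((if true then θ j else 1 - θ j) *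
      (if j = i then (if true then (1:ℝ) else 0) else if j ∈ S then (if true then 0 else 1) else 1) +
      (if false then θ j else 1 - θ j) *
      (if j = i then (if false then 1 else 0) else if j ∈ S then (if false then 0 else 1) else 1)) =
      (if j = i then θ i else 1) * (if j ∈ S.erase i then (1 - θ j) else 1) := by
    intro j
    by_cases hj : j = i
    · subst hj; simp
    · by_cases hjS : j ∈ S
      · simp [hj, hjS]
      · simp [hj, hjS]
  have h3 := Finset.prod_congr (rfl : (Finset.univ : Finset ι) = Finset.univ) (fun j _ => h2 j)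
  simp only [Bool.false_eq_true] at h3 ⊢
  rw [h3, Finset.prod_mul_distrib]
  congr 1
  · rw [Finset.prod_ite_eq' Finset.univ i (fun _ => θ i)]
    simp
  · rw [Finset.prod_ite_mem]
    simp

end prob

theorem maxSparse {P : ℝ} (hP : 1 ≤ P) {ι X : Type} [Fintype ι] [Fintype X]
    (g : ι → X → ℝ) (hg0 : ∀ i x, 0 ≤ g i x) (hg1 : ∀ i x, g i x ≤ 1)
    (θ : ι → ℝ) (h0 : ∀ i, 0 ≤ θ i) (h1 : ∀ i, θ i ≤ 1)
    (hsp : ∀ x, ∑ i, (if g i x = 0 then 0 else θ i) ≤ 1 / 4) :
    ∃ (Ω : Type) (_ : Fintype Ω) (w : Ω → ℝ) (Ψ : Ω → X → ℝ),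
      (∀ ω, 0 ≤ w ω) ∧ ∑ ω, w ω = 1 ∧ (∀ ω x, 0 ≤ Ψ ω x ∧ Ψ ω x ≤ 1) ∧
      (∀ x y, (1 / 2 : ℝ) * ∑ i, θ i * |g i x - g i y| ^ P ≤
        ∑ ω, w ω * |Ψ ω x - Ψ ω y| ^ P) ∧
      (∀ x y, ∑ ω, w ω * |Ψ ω x - Ψ ω y| ^ P ≤ ∑ i, θ i * |g i x - g i y| ^ P) := by
  classical
  have hPne : P ≠ 0 := by linarith
  refine ⟨ι → Bool, inferInstance, wt θ,
    fun ω x => mx (fun i => if ω i then g i x else 0), wt_nonneg θ h0 h1, wt_sum θ, ?_, ?_, ?_⟩
  · intro ω x
    refine ⟨mx_nonneg _, mx_le _ _ zero_le_one ?_⟩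
    intro i
    split_ifs
    · exact hg1 i x
    · exact zero_le_one
  · intro x y
    set S : Finset ι := Finset.univ.filter (fun i => g i x ≠ 0 ∨ g i y ≠ 0) with hS
    have hθS : ∑ i ∈ S, θ i ≤ 1 / 2 := by
      have e1 : ∑ i ∈ S, θ i ≤ ∑ i ∈ S, ((if g i x = 0 then 0 else θ i) +
          (if g i y = 0 then 0 else θ i)) := by
        apply Finset.sum_le_sum
        intro i hi
        rw [hS, Finset.mem_filter] at hi
        have := h0 i
        rcases hi.2 with h | h
        · rw [if_neg h]; split_ifs <;> linarith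
        · rw [if_neg h]; split_ifs <;> linarith
      have e2 : ∑ i ∈ S, ((if g i x = 0 then 0 else θ i) + (if g i y = 0 then 0 else θ i)) ≤
          ∑ i, ((if g i x = 0 then 0 else θ i) + (if g i y = 0 then 0 else θ i)) := by
        apply Finset.sum_le_sum_of_subset_of_nonneg (Finset.subset_univ S)
        intro i _ _
        have := h0 i
        split_ifs <;> linarith
      simp only [Finset.sum_add_distrib] at e1 e2
      have h3 := hsp x
      have h4 := hsp y
      linarith
    have hout : ∀ i, i ∉ S → g i x = 0 ∧ g i y = 0 := by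
      intro i hi
      rw [hS, Finset.mem_filter] at hi
      push Not at hi
      exact hi (Finset.mem_univ i)
    -- pointwise
    have hpt : ∀ ω : ι → Bool, ∑ i ∈ S, ev S i ω * |g i x - g i y| ^ P ≤
        |mx (fun i => if ω i then g i x else 0) - mx (fun i => if ω i then g i y else 0)| ^ P := by
      intro ω
      by_cases hex : ∃ i ∈ S, ω i = true ∧ ∀ j ∈ S, j ≠ i → ω j = false
      · obtain ⟨i, hiS, hi, hj⟩ := hex
        have e1 : ∑ k ∈ S, ev S k ω * |g k x - g k y| ^ P = |g i x - g i y| ^ P := by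
          rw [Finset.sum_eq_single i]
          · unfold ev
            rw [if_pos ⟨hi, hj⟩, one_mul]
          · intro k hk hki
            unfold ev
            rw [if_neg]
            · simp
            · rintro ⟨hk1, _⟩
              rw [hj k hk hki] at hk1
              exact Bool.false_ne_true hk1
          · intro h; exact absurd hiS h
        have e2 : ∀ z, (∀ k, k ∉ S → g k z = 0) → mx (fun i => if ω i then g i z else 0) = g i z := by
          intro z hz
          have := mx_single (fun i => if ω i then g i z else 0) i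
            (by simp only [hi, if_true]; exact hg0 i z) (by
              intro j hji
              by_cases hjS : j ∈ S
              · simp [hj j hjS hji]
              · simp [hz j hjS])
          rw [this]; simp [hi]
        rw [e1, e2 x (fun k hk => (hout k hk).1), e2 y (fun k hk => (hout k hk).2)]
      · have e1 : ∑ i ∈ S, ev S i ω * |g i x - g i y| ^ P = 0 := by
          apply Finset.sum_eq_zero
          intro i hi
          unfold ev
          rw [if_neg]
          · simp
          · intro h; exact hex ⟨i, hi, h⟩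
        rw [e1]
        exact Real.rpow_nonneg (abs_nonneg _) _
    have h2 : ∑ ω, wt θ ω * ∑ i ∈ S, ev S i ω * |g i x - g i y| ^ P ≤
        ∑ ω, wt θ ω *
        |mx (fun i => if ω i then g i x else 0) - mx (fun i => if ω i then g i y else 0)| ^ P := by
      apply Finset.sum_le_sum
      intro ω _
      exact mul_le_mul_of_nonneg_left (hpt ω) (wt_nonneg θ h0 h1 ω)
    refine le_trans ?_ h2
    have h3 : ∑ ω, wt θ ω * ∑ i ∈ S, ev S i ω * |g i x - g i y| ^ P =
        ∑ i ∈ S, (θ i * ∏ j ∈ S.erase i, (1 - θ j)) * |g i x - g i y| ^ P := by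
      simp only [Finset.mul_sum]
      rw [Finset.sum_comm]
      apply Finset.sum_congr rfl
      intro i _
      rw [← ev_prob θ S i, Finset.sum_mul]
      apply Finset.sum_congr rfl
      intro ω _
      ring
    rw [h3, Finset.mul_sum]
    have h4 : ∑ i, 1 / 2 * (θ i * |g i x - g i y| ^ P) =
        ∑ i ∈ S, 1 / 2 * (θ i * |g i x - g i y| ^ P) := by
      symm
      apply Finset.sum_subset (Finset.subset_univ S)
      intro i _ hi
      rw [(hout i hi).1, (hout i hi).2, sub_self, abs_zero, Real.zero_rpow hPne]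
      ring
    rw [h4]
    apply Finset.sum_le_sum
    intro i hi
    have h5 : (1 / 2 : ℝ) ≤ ∏ j ∈ S.erase i, (1 - θ j) := by
      refine le_trans ?_ (prod_one_sub_ge (S.erase i) θ (fun j _ => h0 j) (fun j _ => h1 j))
      have : ∑ j ∈ S.erase i, θ j ≤ ∑ j ∈ S, θ j :=
        Finset.sum_le_sum_of_subset_of_nonneg (Finset.erase_subset i S) (fun j _ _ => h0 j)
      linarith
    have h6 : 0 ≤ θ i * |g i x - g i y| ^ P :=
      mul_nonneg (h0 i) (Real.rpow_nonneg (abs_nonneg _) _)
    calc 1 / 2 * (θ i * |g i x - g i y| ^ P) ≤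
        (∏ j ∈ S.erase i, (1 - θ j)) * (θ i * |g i x - g i y| ^ P) :=
          mul_le_mul_of_nonneg_right h5 h6
      _ = _ := by ring
  · intro x y
    have h2 : ∀ ω : ι → Bool,
        |mx (fun i => if ω i then g i x else 0) - mx (fun i => if ω i then g i y else 0)| ^ P ≤
        ∑ i, ev {i} i ω * |g i x - g i y| ^ P := by
      intro ω
      refine (mx_sub hP _ _).trans (le_of_eq ?_)
      apply Finset.sum_congr rfl
      intro i _
      unfold ev
      cases hω : ω i
      · simp [Real.zero_rpow hPne]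
      · simp
    have h3 : ∑ ω, wt θ ω *
        |mx (fun i => if ω i then g i x else 0) - mx (fun i => if ω i then g i y else 0)| ^ P ≤
        ∑ ω, wt θ ω * ∑ i, ev {i} i ω * |g i x - g i y| ^ P := by
      apply Finset.sum_le_sum
      intro ω _
      exact mul_le_mul_of_nonneg_left (h2 ω) (wt_nonneg θ h0 h1 ω)
    refine h3.trans (le_of_eq ?_)
    simp only [Finset.mul_sum]
    rw [Finset.sum_comm]
    apply Finset.sum_congr rfl
    intro i _
    have h4 := ev_prob θ {i} i
    simp only [Finset.erase_singleton, Finset.prod_empty, mul_one] at h4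
    rw [← h4, Finset.sum_mul]
    apply Finset.sum_congr rfl
    intro ω _
    ring

end Vale.Agent.P249
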