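import Mathlib
import Vale.Agent.P249.Ladder
import Vale.Agent.P249.MaxSparse

namespace Vale.Agent.P249

noncomputable def pn (s : Bool) (a : ℝ) : ℝ := if s then max a 0 else max (-a) 0

theorem pn_nonneg (s : Bool) (a : ℝ) : 0 ≤ pn s a := by
  unfold pn; split_ifs <;> exact le_max_right _ _

theorem pn_le (s : Bool) (a : ℝ) : pn s a ≤ |a| := by
  unfold pn; split_ifs
  · exact max_le (le_abs_self a) (abs_nonneg a)
  · exact max_le (neg_le_abs a) (abs_nonneg a)

theorem pn_pow {P : ℝ} (hP : 1 ≤ P) (a : ℝ) : pn true a ^ P + pn false a ^ P = |a| ^ P := by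
  have hPne : P ≠ 0 := by linarith
  unfold pn
  simp only [if_true, Bool.false_eq_true, if_false]
  rcases le_total 0 a with h | h
  · rw [max_eq_left h, max_eq_right (by linarith : -a ≤ 0), abs_of_nonneg h,
      Real.zero_rpow hPne, add_zero]
  · rw [max_eq_right h, max_eq_left (by linarith : 0 ≤ -a), abs_of_nonpos h,
      Real.zero_rpow hPne, zero_add]

theorem pn_diff (a b : ℝ) :
    |pn true a - pn true b| + |pn false a - pn false b| = |a - b| := by
  unfold pn
  simp only [if_true, Bool.false_eq_true, if_false]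
  rcases le_total 0 a with ha | ha <;> rcases le_total 0 b with hb | hb
  · rw [max_eq_left ha, max_eq_left hb, max_eq_right (by linarith : -a ≤ 0),
      max_eq_right (by linarith : -b ≤ 0)]; simp
  · rw [max_eq_left ha, max_eq_right hb, max_eq_right (by linarith : -a ≤ 0),
      max_eq_left (by linarith : 0 ≤ -b), abs_of_nonneg (by linarith), abs_of_nonpos (by linarith),
      abs_of_nonneg (by linarith)]; ring
  · rw [max_eq_right ha, max_eq_left hb, max_eq_left (by linarith : 0 ≤ -a),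
      max_eq_right (by linarith : -b ≤ 0), abs_of_nonpos (by linarith), abs_of_nonneg (by linarith),
      abs_of_nonpos (by linarith)]; ring
  · rw [max_eq_right ha, max_eq_right hb, max_eq_left (by linarith : 0 ≤ -a),
      max_eq_left (by linarith : 0 ≤ -b), sub_self, abs_zero, zero_add, ← abs_neg]
    congr 1; ring

theorem layer (P : ℝ) (hP : 1 ≤ P) {I X : Type} [Fintype I] [Fintype X] (L : X → I → ℝ)
    (R : ℝ) (hR : 0 < R) (hL : ∀ x, ∑ i, |L x i| ^ P ≤ R ^ P) :
    ∃ (Ω : Type) (_ : Fintype Ω) (w : Ω → ℝ) (Ψ : Ω → X → ℝ),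
      (∀ ω, 0 ≤ w ω) ∧ ∑ ω, w ω = 1 ∧ (∀ ω x, |Ψ ω x| ≤ 12 * R) ∧
      (∀ x y, (1 / 16 : ℝ) ^ P * ∑ i, |L x i - L y i| ^ P ≤
        ∑ ω, w ω * |Ψ ω x - Ψ ω y| ^ P) ∧
      (∀ x y, ∑ ω, w ω * |Ψ ω x - Ψ ω y| ^ P ≤ ∑ i, |L x i - L y i| ^ P) := by
  classical
  have hP0 : 0 ≤ P := by linarith
  have hPpos : 0 < P := by linarith
  have hPne : P ≠ 0 := by linarith
  set U := 2 * Fintype.card I with hU
  have hU2 : (2 * Fintype.card I : ℝ) ≤ 2 ^ U := by
    have : 2 * Fintype.card I ≤ 2 ^ U := (Nat.lt_two_pow_self (n := U)).le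
    exact_mod_cast this
  have hRP : 0 < R ^ P := Real.rpow_pos_of_pos hR P
  have hLR : ∀ x k, |L x k| ≤ R := by
    intro x k
    have h1 : |L x k| ^ P ≤ R ^ P :=
      (Finset.single_le_sum (f := fun i => |L x i| ^ P)
        (fun i _ => Real.rpow_nonneg (abs_nonneg _) _) (Finset.mem_univ k)).trans (hL x)
    exact (Real.rpow_le_rpow_iff (abs_nonneg _) hR.le hPpos).mp h1
  set g : ((I × Bool) × Fin (U + 1)) → X → ℝ := fun i x =>
    lad U R i.2 (pn i.1.2 (L x i.1.1)) / ssz U R i.2 with hg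
  set θ : ((I × Bool) × Fin (U + 1)) → ℝ := fun i => ssz U R i.2 ^ P / (12 * R ^ P) with hθ
  have hssz : ∀ i : ((I × Bool) × Fin (U + 1)), 0 < ssz U R i.2 := fun i => ssz_pos U R _ hR
  have hg0 : ∀ i x, 0 ≤ g i x := fun i x =>
    div_nonneg (lad_nonneg U R _ _ hR (pn_nonneg _ _)) (hssz i).le
  have hg1 : ∀ i x, g i x ≤ 1 := fun i x => by
    rw [hg]; simp only
    rw [div_le_one (hssz i)]
    exact lad_le U R _ _ hR
  have hθ0 : ∀ i, 0 ≤ θ i := fun i =>
    div_nonneg (Real.rpow_nonneg (hssz i).le _) (by linarith)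
  have hθ1 : ∀ i, θ i ≤ 1 := fun i => by
    rw [hθ]; simp only
    rw [div_le_one (by linarith)]
    have := Real.rpow_le_rpow (hssz i).le (ssz_le U R i.2 hR) hP0
    linarith
  have hact : ∀ i x, (if g i x = 0 then 0 else θ i) =
      actv P U R i.2 (pn i.1.2 (L x i.1.1)) / (12 * R ^ P) := by
    intro i x
    have hiff : g i x = 0 ↔ lad U R i.2 (pn i.1.2 (L x i.1.1)) = 0 := by
      rw [hg]; simp only
      rw [div_eq_zero_iff]
      constructor
      · rintro (h | h)
        · exact h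
        · exact absurd h (hssz i).ne'
      · intro h; left; exact h
    unfold actv
    by_cases h : g i x = 0
    · rw [if_pos h, if_pos (hiff.mp h)]; simp
    · rw [if_neg h, if_neg (fun h' => h (hiff.mpr h'))]
  have hpow2 : (R / 2 ^ U) ^ P ≤ R ^ P / 2 ^ U := by
    rw [Real.div_rpow hR.le (by positivity)]
    apply div_le_div_of_nonneg_left hRP.le (by positivity)
    have h1 : (1:ℝ) ≤ 2 ^ U := one_le_pow₀ (by norm_num)
    have := Real.rpow_le_rpow_of_exponent_le h1 hP
    rwa [Real.rpow_one] at this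
  have hsp : ∀ x, ∑ i, (if g i x = 0 then 0 else θ i) ≤ 1 / 4 := by
    intro x
    rw [Finset.sum_congr rfl (fun i _ => hact i x), Fintype.sum_prod_type, Fintype.sum_prod_type]
    have h1 : ∀ (k : I) (s : Bool), ∑ u : Fin (U + 1), actv P U R u (pn s (L x k)) / (12 * R ^ P) ≤
        (2 * pn s (L x k) ^ P + R ^ P / 2 ^ U) / (12 * R ^ P) := by
      intro k s
      rw [← Finset.sum_div, Fin.sum_univ_eq_sum_range (fun u => actv P U R u (pn s (L x k)))]
      apply div_le_div_of_nonneg_right _ (by linarith)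
      exact (lad_sparse hP U R _ hR (pn_nonneg _ _)).trans (by linarith)
    have h2 : ∀ k : I, ∑ s : Bool, ∑ u : Fin (U + 1),
        actv P U R u (pn s (L x k)) / (12 * R ^ P) ≤
        (2 * |L x k| ^ P + 2 * (R ^ P / 2 ^ U)) / (12 * R ^ P) := by
      intro k
      rw [Fintype.sum_bool]
      refine (add_le_add (h1 k true) (h1 k false)).trans (le_of_eq ?_)
      rw [← pn_pow hP, ← add_div]
      congr 1; ring
    refine (Finset.sum_le_sum fun k _ => h2 k).trans ?_
    rw [← Finset.sum_div, Finset.sum_add_distrib, ← Finset.mul_sum, div_le_iff₀ (by linarith)]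
    have h3 : ∑ _k : I, 2 * (R ^ P / 2 ^ U) ≤ R ^ P := by
      rw [Finset.sum_const, Finset.card_univ, nsmul_eq_mul]
      have h4 : (Fintype.card I : ℝ) * (2 * (R ^ P / 2 ^ U)) =
          R ^ P * ((2 * Fintype.card I) / 2 ^ U) := by ring
      rw [h4]
      apply mul_le_of_le_one_right hRP.le
      rw [div_le_one (by positivity)]
      exact hU2
    have := hL x
    linarith
  obtain ⟨Ω, hΩ, w, Ψ, hw0, hw1, hΨ, hlow, hup⟩ := maxSparse hP g hg0 hg1 θ hθ0 hθ1 hsp
  have h12 : ((12:ℝ) ^ (1 / P)) ^ P = 12 := by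
    rw [← Real.rpow_mul (by norm_num), one_div_mul_cancel hPne, Real.rpow_one]
  have h12le : (12:ℝ) ^ (1 / P) ≤ 12 := by
    have := Real.rpow_le_rpow_of_exponent_le (by norm_num : (1:ℝ) ≤ 12)
      (show 1 / P ≤ 1 by rw [div_le_one hPpos]; exact hP)
    rwa [Real.rpow_one] at this
  have h12nn : (0:ℝ) ≤ (12:ℝ) ^ (1 / P) := Real.rpow_nonneg (by norm_num) _
  set c := R * (12:ℝ) ^ (1 / P) with hc
  have hc0 : 0 ≤ c := mul_nonneg hR.le h12nn
  have hcP : c ^ P = 12 * R ^ P := by
    rw [hc, Real.mul_rpow hR.le h12nn, h12]; ring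
  have hscale : ∀ x y, ∑ ω, w ω * |c * Ψ ω x - c * Ψ ω y| ^ P =
      (12 * R ^ P) * ∑ ω, w ω * |Ψ ω x - Ψ ω y| ^ P := by
    intro x y
    rw [Finset.mul_sum]
    apply Finset.sum_congr rfl
    intro ω _
    rw [← mul_sub, abs_mul, abs_of_nonneg hc0, Real.mul_rpow hc0 (abs_nonneg _), hcP]
    ring
  have hθg : ∀ x y, (12 * R ^ P) * ∑ i, θ i * |g i x - g i y| ^ P =
      ∑ k : I, ∑ s : Bool, ∑ u ∈ Finset.range (U + 1),
        |lad U R u (pn s (L x k)) - lad U R u (pn s (L y k))| ^ P := by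
    intro x y
    rw [Finset.mul_sum, Fintype.sum_prod_type, Fintype.sum_prod_type]
    apply Finset.sum_congr rfl
    intro k _
    apply Finset.sum_congr rfl
    intro s _
    rw [← Fin.sum_univ_eq_sum_range
      (fun u => |lad U R u (pn s (L x k)) - lad U R u (pn s (L y k))| ^ P)]
    apply Finset.sum_congr rfl
    intro u _
    simp only [hg, hθ]
    rw [← sub_div, abs_div, abs_of_pos (ssz_pos U R u hR),
      Real.div_rpow (abs_nonneg _) (ssz_pos U R u hR).le]
    have := (Real.rpow_pos_of_pos (ssz_pos U R u hR) P).ne'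
    field_simp
  refine ⟨Ω, hΩ, w, fun ω x => c * Ψ ω x, hw0, hw1, ?_, ?_, ?_⟩
  · intro ω x
    obtain ⟨h1, h2⟩ := hΨ ω x
    rw [abs_of_nonneg (mul_nonneg hc0 h1)]
    calc c * Ψ ω x ≤ c * 1 := mul_le_mul_of_nonneg_left h2 hc0
      _ = R * (12:ℝ) ^ (1 / P) := by rw [mul_one]
      _ ≤ R * 12 := mul_le_mul_of_nonneg_left h12le hR.le
      _ = 12 * R := by ring
  · intro x y
    rw [hscale]
    have h1 := mul_le_mul_of_nonneg_left (hlow x y) (by linarith : 0 ≤ 12 * R ^ P)
    refine le_trans ?_ h1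
    have h2 : (12 * R ^ P) * (1 / 2 * ∑ i, θ i * |g i x - g i y| ^ P) =
        1 / 2 * ((12 * R ^ P) * ∑ i, θ i * |g i x - g i y| ^ P) := by ring
    rw [h2, hθg]
    have h3 : ∀ k : I, 2 * ((1 / 16 : ℝ) ^ P * |L x k - L y k| ^ P) ≤
        ∑ s : Bool, ∑ u ∈ Finset.range (U + 1),
        |lad U R u (pn s (L x k)) - lad U R u (pn s (L y k))| ^ P := by
      intro k
      rw [Fintype.sum_bool]
      have a1 := lad_lower hP U R (pn true (L x k)) (pn true (L y k)) hR (pn_nonneg _ _)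
        ((pn_le _ _).trans (hLR x k)) (pn_nonneg _ _) ((pn_le _ _).trans (hLR y k))
      have a2 := lad_lower hP U R (pn false (L x k)) (pn false (L y k)) hR (pn_nonneg _ _)
        ((pn_le _ _).trans (hLR x k)) (pn_nonneg _ _) ((pn_le _ _).trans (hLR y k))
      refine le_trans ?_ (add_le_add a1 a2)
      rw [← mul_add]
      have a3 := add_rpow_le hP (abs_nonneg (pn true (L x k) - pn true (L y k)))
        (abs_nonneg (pn false (L x k) - pn false (L y k)))
      rw [pn_diff] at a3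
      set T := |pn true (L x k) - pn true (L y k)| ^ P + |pn false (L x k) - pn false (L y k)| ^ P
        with hT
      have hT0 : 0 ≤ T := add_nonneg (Real.rpow_nonneg (abs_nonneg _) _)
        (Real.rpow_nonneg (abs_nonneg _) _)
      have a4 : (2:ℝ) ^ (P - 1) = 2 ^ P / 2 := by
        rw [Real.rpow_sub (by norm_num), Real.rpow_one]
      rw [a4] at a3
      have a5 : (1 / 16 : ℝ) ^ P = (1 / 4) ^ P * (1 / 2) ^ P * (1 / 2) ^ P := by
        rw [← Real.mul_rpow (by norm_num) (by norm_num), ← Real.mul_rpow (by norm_num)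
          (by norm_num)]
        norm_num
      have a6 : (1 / 2 : ℝ) ^ P * 2 ^ P = 1 := by
        rw [← Real.mul_rpow (by norm_num) (by norm_num)]; norm_num
      have a7 : (1 / 2 : ℝ) ^ P ≤ 1 := Real.rpow_le_one (by norm_num) (by norm_num) hP0
      have a8 : (0:ℝ) ≤ (1 / 2) ^ P := Real.rpow_nonneg (by norm_num) _
      have a9 : (0:ℝ) ≤ (1 / 4) ^ P := Real.rpow_nonneg (by norm_num) _
      have b1 : (1 / 2 : ℝ) ^ P * |L x k - L y k| ^ P ≤ T / 2 := by
        have := mul_le_mul_of_nonneg_left a3 a8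
        have e : (1 / 2 : ℝ) ^ P * (2 ^ P / 2 * T) = ((1 / 2 : ℝ) ^ P * 2 ^ P) * T / 2 := by ring
        rw [e, a6, one_mul] at this
        exact this
      have b2 : (1 / 2 : ℝ) ^ P * ((1 / 2 : ℝ) ^ P * |L x k - L y k| ^ P) ≤ T / 2 := by
        refine le_trans ?_ b1
        apply mul_le_of_le_one_left _ a7
        exact mul_nonneg a8 (Real.rpow_nonneg (abs_nonneg _) _)
      have b3 := mul_le_mul_of_nonneg_left b2 a9
      rw [a5]
      calc 2 * ((1 / 4) ^ P * (1 / 2) ^ P * (1 / 2) ^ P * |L x k - L y k| ^ P) =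
          2 * ((1 / 4) ^ P * ((1 / 2) ^ P * ((1 / 2) ^ P * |L x k - L y k| ^ P))) := by ring
        _ ≤ 2 * ((1 / 4) ^ P * (T / 2)) := by linarith
        _ = (1 / 4) ^ P * T := by ring
    have h4 := Finset.sum_le_sum (fun k (_ : k ∈ Finset.univ) => h3 k)
    rw [← Finset.mul_sum, ← Finset.mul_sum] at h4
    linarith
  · intro x y
    rw [hscale]
    have h1 := mul_le_mul_of_nonneg_left (hup x y) (by linarith : 0 ≤ 12 * R ^ P)
    refine h1.trans ?_
    rw [hθg]
    apply Finset.sum_le_sum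
    intro k _
    rw [Fintype.sum_bool]
    have a1 := lad_upper hP U R (pn true (L x k)) (pn true (L y k)) hR (pn_nonneg _ _)
      ((pn_le _ _).trans (hLR x k)) (pn_nonneg _ _) ((pn_le _ _).trans (hLR y k))
    have a2 := lad_upper hP U R (pn false (L x k)) (pn false (L y k)) hR (pn_nonneg _ _)
      ((pn_le _ _).trans (hLR x k)) (pn_nonneg _ _) ((pn_le _ _).trans (hLR y k))
    refine (add_le_add a1 a2).trans ?_
    refine (add_rpow_ge hP (abs_nonneg _) (abs_nonneg _)).trans ?_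
    rw [pn_diff]

end Vale.Agent.P249
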