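import Mathlib
import Vale.Agent.P249.Gibbs

namespace Vale.Agent.P249

section
variable {X : Type} [Fintype X] [Nonempty X] (d : X → X → ℝ)

theorem sm_disp (hn : ∀ x y, 0 ≤ d x y) {E : Type}
    [NormedAddCommGroup E] [NormedSpace ℝ E] (T : X → E) (K : ℝ)
    (hT : ∀ x y, ‖T x - T y‖ ≤ K * d x y) (hs : ∀ x y, d x y = d y x)
    (β : ℝ) (hβ : 0 < β) (x : X) :
    ‖∑ z, gp d β x z • T z - T x‖ ≤ K * (kap d β x / β) := by
  have h1 : ∑ z, gp d β x z • T z - T x = ∑ z, gp d β x z • (T z - T x) := by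
    simp only [smul_sub, Finset.sum_sub_distrib]
    rw [← Finset.sum_smul, gp_sum, one_smul]
  rw [h1]
  refine (norm_sum_le _ _).trans ?_
  have h2 : K * (kap d β x / β) = ∑ z, gp d β x z * (K * d x z) := by
    unfold kap
    rw [Finset.sum_div, Finset.mul_sum]
    apply Finset.sum_congr rfl
    intro z _
    field_simp
  rw [h2]
  apply Finset.sum_le_sum
  intro z _
  rw [norm_smul, Real.norm_of_nonneg (gp_pos d β x z).le]
  apply mul_le_mul_of_nonneg_left _ (gp_pos d β x z).le
  rw [norm_sub_rev]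
  exact hT x z

theorem sm_lip (hn : ∀ x y, 0 ≤ d x y) (hs : ∀ x y, d x y = d y x)
    (ht : ∀ x y z, d x z ≤ d x y + d y z) {E : Type}
    [NormedAddCommGroup E] [NormedSpace ℝ E] (T : X → E) (K : ℝ) (hK : 0 ≤ K)
    (hT : ∀ x y, ‖T x - T y‖ ≤ K * d x y)
    (β : ℝ) (hβ : 0 < β) (x y : X) :
    ‖∑ z, gp d β x z • T z - ∑ z, gp d β y z • T z‖ ≤
      K * (1 + 7 * kap d β x + kap d β y) * d x y := by
  have hkx := kap_nonneg d hn β hβ.le x
  have hky := kap_nonneg d hn β hβ.le y
  rcases le_total (β * d x y) 1 with h1 | h1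
  · have e1 : ∑ z, gp d β x z • T z - ∑ z, gp d β y z • T z =
        ∑ z, (gp d β x z - gp d β y z) • (T z - T x) := by
      simp only [smul_sub, sub_smul, Finset.sum_sub_distrib]
      rw [← Finset.sum_smul, ← Finset.sum_smul, gp_sum, gp_sum]
      simp
    rw [e1]
    refine (norm_sum_le _ _).trans ?_
    have e2 : ∑ z, ‖(gp d β x z - gp d β y z) • (T z - T x)‖ ≤
        ∑ z, (7 * (β * d x y) * gp d β x z) * (K * d x z) := by
      apply Finset.sum_le_sum
      intro z _
      rw [norm_smul, Real.norm_eq_abs]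
      apply mul_le_mul (gp_sub_le d hn hs ht β hβ.le x y z h1) _ (norm_nonneg _)
      · exact mul_nonneg (mul_nonneg (by norm_num) (mul_nonneg hβ.le (hn x y)))
          (gp_pos d β x z).le
      · rw [norm_sub_rev]; exact hT x z
    refine e2.trans ?_
    have e3 : ∑ z, (7 * (β * d x y) * gp d β x z) * (K * d x z) =
        K * (7 * kap d β x) * d x y := by
      unfold kap
      rw [Finset.mul_sum, Finset.mul_sum, Finset.sum_mul]
      apply Finset.sum_congr rfl
      intro z _
      ring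
    rw [e3]
    have := hn x y
    apply mul_le_mul_of_nonneg_right _ (hn x y)
    apply mul_le_mul_of_nonneg_left _ hK
    linarith
  · have a1 := sm_disp d hn T K hT hs β hβ x
    have a2 := sm_disp d hn T K hT hs β hβ y
    have a3 := hT x y
    have hb : 1 / β ≤ d x y := by
      rw [div_le_iff₀ hβ]; linarith [mul_comm β (d x y)]
    have b1 : kap d β x / β ≤ kap d β x * d x y := by
      rw [div_eq_mul_one_div]; exact mul_le_mul_of_nonneg_left hb hkx
    have b2 : kap d β y / β ≤ kap d β y * d x y := by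
      rw [div_eq_mul_one_div]; exact mul_le_mul_of_nonneg_left hb hky
    have c1 : ‖∑ z, gp d β x z • T z - ∑ z, gp d β y z • T z‖ ≤
        ‖∑ z, gp d β x z • T z - T x‖ + ‖T x - T y‖ + ‖∑ z, gp d β y z • T z - T y‖ := by
      have : ∑ z, gp d β x z • T z - ∑ z, gp d β y z • T z =
        (∑ z, gp d β x z • T z - T x) + (T x - T y) - (∑ z, gp d β y z • T z - T y) := by abel
      rw [this]
      refine (norm_sub_le _ _).trans ?_
      gcongr
      exact norm_add_le _ _
    have f1 := mul_le_mul_of_nonneg_left b1 hK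
    have f2 := mul_le_mul_of_nonneg_left b2 hK
    have f3 : 0 ≤ K * (6 * kap d β x) * d x y := by
      have := hn x y
      positivity
    nlinarith

theorem sm_pt (hn : ∀ x y, 0 ≤ d x y) (hs : ∀ x y, d x y = d y x)
    (ht : ∀ x y z, d x z ≤ d x y + d y z) (T : X → ℝ) (Q : ℝ) (hQ : 0 ≤ Q)
    (hT : ∀ x, |T x| ≤ Q) (β : ℝ) (hβ : 0 < β) (x y : X) :
    |∑ z, gp d β x z * T z - ∑ z, gp d β y z * T z| ≤ 7 * Q * β * d x y := by
  rcases le_total (β * d x y) 1 with h1 | h1
  · rw [← Finset.sum_sub_distrib]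
    refine (Finset.abs_sum_le_sum_abs _ _).trans ?_
    have e2 : ∑ z, |gp d β x z * T z - gp d β y z * T z| ≤
        ∑ z, (7 * (β * d x y) * gp d β x z) * Q := by
      apply Finset.sum_le_sum
      intro z _
      rw [← sub_mul, abs_mul]
      exact mul_le_mul (gp_sub_le d hn hs ht β hβ.le x y z h1) (hT z) (abs_nonneg _)
        (mul_nonneg (mul_nonneg (by norm_num) (mul_nonneg hβ.le (hn x y)))
          (gp_pos d β x z).le)
    refine e2.trans ?_
    rw [← Finset.sum_mul, ← Finset.mul_sum, gp_sum]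
    linarith
  · have e : ∀ x, |∑ z, gp d β x z * T z| ≤ Q := by
      intro x
      refine (Finset.abs_sum_le_sum_abs _ _).trans ?_
      have : ∑ z, |gp d β x z * T z| ≤ ∑ z, gp d β x z * Q := by
        apply Finset.sum_le_sum
        intro z _
        rw [abs_mul, abs_of_pos (gp_pos d β x z)]
        exact mul_le_mul_of_nonneg_left (hT z) (gp_pos d β x z).le
      refine this.trans ?_
      rw [← Finset.sum_mul, gp_sum, one_mul]
    have h2 := abs_sub (∑ z, gp d β x z * T z) (∑ z, gp d β y z * T z)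
    have h3 := e x
    have h4 := e y
    have h5 : Q ≤ Q * (β * d x y) := le_mul_of_one_le_right hQ h1
    have h6 : 0 ≤ Q * (β * d x y) := hQ.trans h5
    nlinarith

end

theorem smoothing {X : Type} [Fintype X] [Nonempty X] (d : X → X → ℝ)
    (h0 : ∀ x, d x x = 0) (hn : ∀ x y, 0 ≤ d x y) (hs : ∀ x y, d x y = d y x)
    (ht : ∀ x y z, d x z ≤ d x y + d y z) (b : ℝ) (hb : 0 < b) (J : ℕ) (hJ : 0 < J) :
    ∃ W : X → X → ℝ, (∀ x z, 0 ≤ W x z) ∧ (∀ x, ∑ z, W x z = 1) ∧
      (∀ (E : Type) [NormedAddCommGroup E] [NormedSpace ℝ E] (T : X → E) (K : ℝ), 0 ≤ K →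
        (∀ x y, ‖T x - T y‖ ≤ K * d x y) →
        (∀ x, ‖∑ z, W x z • T z - T x‖ ≤
          K * (2 ^ J / b) * (2 * (Real.log (Fintype.card X) / J))) ∧
        (∀ x y, ‖∑ z, W x z • T z - ∑ z, W y z • T z‖ ≤
          K * (1 + 16 * (Real.log (Fintype.card X) / J)) * d x y)) ∧
      (∀ (T : X → ℝ) (Q : ℝ), 0 ≤ Q → (∀ x, |T x| ≤ Q) →
        ∀ x y, |∑ z, W x z * T z - ∑ z, W y z * T z| ≤ 7 * Q * b * d x y) := by
  have hJ' : (0 : ℝ) < J := by exact_mod_cast hJ
  have hcardR : ∑ _j ∈ Finset.range J, (1 : ℝ) = J := by simp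
  refine ⟨fun x z => (∑ j ∈ Finset.range J, gp d (b / 2 ^ j) x z) / J, ?_, ?_, ?_, ?_⟩
  · intro x z
    exact div_nonneg (Finset.sum_nonneg fun j _ => (gp_pos d _ x z).le) hJ'.le
  · intro x
    rw [← Finset.sum_div, Finset.sum_comm]
    simp only [gp_sum, hcardR]
    exact div_self hJ'.ne'
  · intro E _ _ T K hK hT
    have hform : ∀ x, ∑ z, ((∑ j ∈ Finset.range J, gp d (b / 2 ^ j) x z) / J) • T z =
        (J : ℝ)⁻¹ • ∑ j ∈ Finset.range J, ∑ z, gp d (b / 2 ^ j) x z • T z := by
      intro x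
      rw [Finset.sum_comm, Finset.smul_sum]
      apply Finset.sum_congr rfl
      intro z _
      rw [← Finset.sum_smul, smul_smul, div_eq_inv_mul]
    constructor
    · intro x
      rw [hform]
      have e1 : (J : ℝ)⁻¹ • ∑ j ∈ Finset.range J, ∑ z, gp d (b / 2 ^ j) x z • T z - T x =
          (J : ℝ)⁻¹ • ∑ j ∈ Finset.range J, (∑ z, gp d (b / 2 ^ j) x z • T z - T x) := by
        rw [Finset.sum_sub_distrib, smul_sub]
        congr 1
        simp only [Finset.sum_const, Finset.card_range]
        rw [← Nat.cast_smul_eq_nsmul ℝ, smul_smul, inv_mul_cancel₀ hJ'.ne', one_smul]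
      rw [e1, norm_smul, norm_inv, Real.norm_of_nonneg hJ'.le]
      have e2 : ‖∑ j ∈ Finset.range J, (∑ z, gp d (b / 2 ^ j) x z • T z - T x)‖ ≤
          ∑ j ∈ Finset.range J, K * (2 ^ J / b) * kap d (b / 2 ^ j) x := by
        refine (norm_sum_le _ _).trans ?_
        apply Finset.sum_le_sum
        intro j hj
        have hbj : 0 < b / 2 ^ j := by positivity
        refine (sm_disp d hn T K hT hs _ hbj x).trans ?_
        have hk := kap_nonneg d hn _ hbj.le x
        have h1 : kap d (b / 2 ^ j) x / (b / 2 ^ j) = (2 ^ j / b) * kap d (b / 2 ^ j) x := by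
          field_simp
        rw [h1, mul_assoc]
        apply mul_le_mul_of_nonneg_left _ hK
        apply mul_le_mul_of_nonneg_right _ hk
        apply div_le_div_of_nonneg_right _ hb.le
        exact pow_le_pow_right₀ (by norm_num) (Finset.mem_range.mp hj).le
      rw [← Finset.mul_sum] at e2
      have e3 := kap_sum d h0 hn b hb J x
      have hKb : 0 ≤ K * (2 ^ J / b) := by positivity
      calc (J : ℝ)⁻¹ * ‖∑ j ∈ Finset.range J, (∑ z, gp d (b / 2 ^ j) x z • T z - T x)‖
          ≤ (J : ℝ)⁻¹ * (K * (2 ^ J / b) * (2 * Real.log (Fintype.card X))) := by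
            apply mul_le_mul_of_nonneg_left _ (by positivity)
            exact e2.trans (mul_le_mul_of_nonneg_left e3 hKb)
        _ = K * (2 ^ J / b) * (2 * (Real.log (Fintype.card X) / J)) := by
            rw [div_eq_mul_inv]; ring
    · intro x y
      rw [hform, hform, ← smul_sub, ← Finset.sum_sub_distrib, norm_smul, norm_inv,
        Real.norm_of_nonneg hJ'.le]
      have e2 : ‖∑ j ∈ Finset.range J, (∑ z, gp d (b / 2 ^ j) x z • T z -
          ∑ z, gp d (b / 2 ^ j) y z • T z)‖ ≤
          ∑ j ∈ Finset.range J, K * (1 + 7 * kap d (b / 2 ^ j) x + kap d (b / 2 ^ j) y) *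
            d x y := by
        refine (norm_sum_le _ _).trans ?_
        apply Finset.sum_le_sum
        intro j _
        exact sm_lip d hn hs ht T K hK hT _ (by positivity) x y
      have e3 : ∑ j ∈ Finset.range J, K * (1 + 7 * kap d (b / 2 ^ j) x +
          kap d (b / 2 ^ j) y) * d x y = K * (J + 7 * ∑ j ∈ Finset.range J,
            kap d (b / 2 ^ j) x + ∑ j ∈ Finset.range J, kap d (b / 2 ^ j) y) * d x y := by
        rw [← Finset.sum_mul, ← Finset.mul_sum, Finset.sum_add_distrib,
          Finset.sum_add_distrib, hcardR, ← Finset.mul_sum]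
      rw [e3] at e2
      have e4 := kap_sum d h0 hn b hb J x
      have e5 := kap_sum d h0 hn b hb J y
      have hKd : 0 ≤ K * d x y := mul_nonneg hK (hn x y)
      calc (J : ℝ)⁻¹ * ‖∑ j ∈ Finset.range J, (∑ z, gp d (b / 2 ^ j) x z • T z -
          ∑ z, gp d (b / 2 ^ j) y z • T z)‖
          ≤ (J : ℝ)⁻¹ * (K * (J + 7 * (2 * Real.log (Fintype.card X)) +
              2 * Real.log (Fintype.card X)) * d x y) := by
            apply mul_le_mul_of_nonneg_left _ (by positivity)
            refine e2.trans ?_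
            apply mul_le_mul_of_nonneg_right _ (hn x y)
            apply mul_le_mul_of_nonneg_left _ hK
            linarith
        _ = K * (1 + 16 * (Real.log (Fintype.card X) / J)) * d x y := by
            field_simp
            ring
  · intro T Q hQ hT x y
    have hform : ∀ x, ∑ z, ((∑ j ∈ Finset.range J, gp d (b / 2 ^ j) x z) / J) * T z =
        (J : ℝ)⁻¹ * ∑ j ∈ Finset.range J, ∑ z, gp d (b / 2 ^ j) x z * T z := by
      intro x
      rw [Finset.sum_comm, Finset.mul_sum]
      apply Finset.sum_congr rfl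
      intro z _
      rw [← Finset.sum_mul, div_eq_inv_mul]
      ring
    rw [hform, hform, ← mul_sub, ← Finset.sum_sub_distrib, abs_mul,
      abs_of_pos (inv_pos.mpr hJ')]
    have e2 : |∑ j ∈ Finset.range J, (∑ z, gp d (b / 2 ^ j) x z * T z -
        ∑ z, gp d (b / 2 ^ j) y z * T z)| ≤
        ∑ _j ∈ Finset.range J, 7 * Q * b * d x y := by
      refine (Finset.abs_sum_le_sum_abs _ _).trans ?_
      apply Finset.sum_le_sum
      intro j _
      refine (sm_pt d hn hs ht T Q hQ hT _ (by positivity) x y).trans ?_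
      apply mul_le_mul_of_nonneg_right _ (hn x y)
      apply mul_le_mul_of_nonneg_left _ (by positivity)
      exact div_le_self hb.le (one_le_pow₀ (by norm_num))
    calc (J : ℝ)⁻¹ * |∑ j ∈ Finset.range J, (∑ z, gp d (b / 2 ^ j) x z * T z -
        ∑ z, gp d (b / 2 ^ j) y z * T z)| ≤ (J : ℝ)⁻¹ * (J * (7 * Q * b * d x y)) := by
          apply mul_le_mul_of_nonneg_left _ (by positivity)
          simpa using e2
      _ = 7 * Q * b * d x y := by field_simp

end Vale.Agent.P249
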