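import Mathlib
import Vale.Agent.P249.Smooth
import Vale.Agent.P249.Local
import Vale.Agent.P249.Layer

open scoped ENNReal

namespace Vale.Agent.P249

theorem pilp_rpow {p : ℝ≥0∞} [Fact (1 ≤ p)] (hp : p ≠ ∞) {I : Type} [Fintype I]
    (f : PiLp p (fun _ : I => ℝ)) : ‖f‖ ^ p.toReal = ∑ i, |f i| ^ p.toReal := by
  have hp0 : 0 < p.toReal := ENNReal.toReal_pos (by
    have := (Fact.out : 1 ≤ p); intro h; rw [h] at this; simp at this) hp
  rw [PiLp.norm_eq_sum hp0, ← Real.rpow_mul (Finset.sum_nonneg fun i _ =>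
    Real.rpow_nonneg (norm_nonneg _) _), one_div_mul_cancel hp0.ne', Real.rpow_one]
  simp [Real.norm_eq_abs]

theorem one_le_toReal {p : ℝ≥0∞} [Fact (1 ≤ p)] (hp : p ≠ ∞) : 1 ≤ p.toReal := by
  have := ENNReal.toReal_mono hp (Fact.out : 1 ≤ p)
  simpa using this

theorem stageA (p : ℝ≥0∞) [Fact (1 ≤ p)] (hp : p ≠ ∞) {X : Type} [Fintype X] [Nonempty X]
    {I : Type} [Fintype I] (v : X → PiLp p (fun _ : I => ℝ)) (J : ℕ) (hJ : 0 < J) (M : ℝ)
    (hM1 : 1 ≤ M) (hM : 4 * (Real.log (Fintype.card X) / J) ≤ M) (r : ℝ) (hr : 0 < r) :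
    ∃ (Ω : Type) (_ : Fintype Ω) (w : Ω → ℝ) (Ψ : Ω → X → ℝ),
      (∀ ω, 0 ≤ w ω) ∧ ∑ ω, w ω = 1 ∧
      (∀ ω x y, |Ψ ω x - Ψ ω y| ≤ 344064 * M ^ 3 * (2 ^ J) ^ 3 * ‖v x - v y‖) ∧
      (∀ ω x y, |Ψ ω x - Ψ ω y| ≤ 48 * M * (2 ^ J) ^ 2 * r) ∧
      (∀ x y, ∑ ω, w ω * |Ψ ω x - Ψ ω y| ^ p.toReal ≤ (160 * M ^ 2 * ‖v x - v y‖) ^ p.toReal) ∧
      (∀ x y, r ≤ ‖v x - v y‖ → ‖v x - v y‖ ≤ 2 ^ J * r →
        (1 / 64 * ‖v x - v y‖) ^ p.toReal ≤ ∑ ω, w ω * |Ψ ω x - Ψ ω y| ^ p.toReal) := by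
  classical
  have hP := one_le_toReal hp
  set P := p.toReal with hPd
  have hP0 : 0 ≤ P := by linarith
  have hPpos : 0 < P := by linarith
  have hM0 : 0 < M := by linarith
  have hA : (0:ℝ) < 2 ^ J := by positivity
  set h := Real.log (Fintype.card X) / J with hh
  have hh0 : 0 ≤ h := div_nonneg (Real.log_nonneg (by exact_mod_cast Fintype.card_pos))
    (Nat.cast_nonneg J)
  obtain ⟨u, s, hb1, hb2, hb3⟩ := localization P hP v (1 / (2 ^ J * r)) (by positivity) J hJ M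
    hM1 hM
  set R := 2 * M * (2 ^ J) ^ 2 * r with hR
  have hRpos : 0 < R := by positivity
  have hReq : 2 * M * 2 ^ J / (1 / (2 ^ J * r)) = R := by rw [hR]; field_simp
  rw [hReq] at hb1
  -- coordinates
  set L : X → ((Fin J × X) × Option I) → ℝ := fun x k =>
    match k.2 with
    | none => s x k.1
    | some i => u x k.1 i with hL
  have hsumL : ∀ x, ∑ k, |L x k| ^ P = ∑ k, (‖u x k‖ ^ P + |s x k| ^ P) := by
    intro x
    rw [Fintype.sum_prod_type]
    apply Finset.sum_congr rfl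
    intro k _
    rw [Fintype.sum_option, pilp_rpow hp, add_comm]
  have hsumLd : ∀ x y, ∑ k, |L x k - L y k| ^ P =
      ∑ k, (‖u x k - u y k‖ ^ P + |s x k - s y k| ^ P) := by
    intro x y
    rw [Fintype.sum_prod_type]
    apply Finset.sum_congr rfl
    intro k _
    rw [Fintype.sum_option, pilp_rpow hp, add_comm]
    simp only [hL, PiLp.sub_apply]
    rfl
  obtain ⟨Ω, hΩ, w, Ψ, hw0, hw1, hsup, hlow, hup⟩ := layer P hP L R hRpos
    (fun x => by rw [hsumL]; exact hb1 x)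
  -- vector valued map
  set T : X → PiLp p (fun _ : Ω => ℝ) := fun x =>
    WithLp.toLp p (fun ω => (w ω) ^ (1 / P) * Ψ ω x) with hT
  have hTgen : ∀ (f g : Ω → ℝ), ‖(WithLp.toLp p (fun ω => (w ω) ^ (1 / P) * f ω) :
      PiLp p (fun _ : Ω => ℝ)) - WithLp.toLp p (fun ω => (w ω) ^ (1 / P) * g ω)‖ ^ P =
      ∑ ω, w ω * |f ω - g ω| ^ P := by
    intro f g
    rw [pilp_rpow hp]
    apply Finset.sum_congr rfl
    intro ω _
    have e : ((WithLp.toLp p (fun ω => (w ω) ^ (1 / P) * f ω) :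
      PiLp p (fun _ : Ω => ℝ)) - WithLp.toLp p (fun ω => (w ω) ^ (1 / P) * g ω)) ω =
      (w ω) ^ (1 / P) * (f ω - g ω) := by
      simp only [PiLp.sub_apply]; ring
    have hc : 0 ≤ (w ω) ^ (1 / P) := Real.rpow_nonneg (hw0 ω) _
    rw [e, abs_mul, abs_of_nonneg hc, Real.mul_rpow hc (abs_nonneg _),
      ← Real.rpow_mul (hw0 ω), one_div_mul_cancel hPpos.ne', Real.rpow_one]
  have hTlip : ∀ x y, ‖T x - T y‖ ≤ 32 * M * ‖v x - v y‖ := by
    intro x y
    have h1 : ‖T x - T y‖ ^ P ≤ (32 * M * ‖v x - v y‖) ^ P := by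
      rw [hT, hTgen]
      refine (hup x y).trans ?_
      rw [hsumLd]
      exact hb2 x y
    exact (Real.rpow_le_rpow_iff (norm_nonneg _) (by positivity) hPpos).mp h1
  have hTlow : ∀ x y, ‖v x - v y‖ ≤ 2 ^ J * r → 1 / 32 * ‖v x - v y‖ ≤ ‖T x - T y‖ := by
    intro x y hxy
    have h1 : (1 / 32 * ‖v x - v y‖) ^ P ≤ ‖T x - T y‖ ^ P := by
      rw [hT, hTgen]
      refine le_trans ?_ (hlow x y)
      rw [hsumLd]
      have h2 := hb3 x y (by rw [one_div_one_div]; exact hxy)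
      have h3 := mul_le_mul_of_nonneg_left h2 (Real.rpow_nonneg (by norm_num : (0:ℝ) ≤ 1 / 16) P)
      refine le_trans (le_of_eq ?_) h3
      rw [← Real.mul_rpow (by norm_num) (by positivity)]
      congr 1; ring
    exact (Real.rpow_le_rpow_iff (by positivity) (norm_nonneg _) hPpos).mp h1
  -- smoothing
  set d : X → X → ℝ := fun a c => ‖v a - v c‖ with hd
  set b := 2048 * M ^ 2 * 2 ^ J / r with hb
  have hbpos : 0 < b := by positivity
  obtain ⟨W, hW0, hW1, hWE, hWR⟩ := smoothing d (fun x => by simp [hd])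
    (fun x y => norm_nonneg _) (fun x y => norm_sub_rev _ _)
    (fun x y z => norm_sub_le_norm_sub_add_norm_sub _ _ _) b hbpos J hJ
  obtain ⟨hdisp, hlip⟩ := hWE (PiLp p (fun _ : Ω => ℝ)) T (32 * M) (by positivity) hTlip
  have hTbar : ∀ x, ∑ z, W x z • T z =
      (WithLp.toLp p (fun ω => (w ω) ^ (1 / P) * ∑ z, W x z * Ψ ω z) :
        PiLp p (fun _ : Ω => ℝ)) := by
    intro x
    ext ω
    rw [WithLp.ofLp_sum, Finset.sum_apply]
    change _ = (w ω) ^ (1 / P) * ∑ z, W x z * Ψ ω z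
    rw [Finset.mul_sum]
    apply Finset.sum_congr rfl
    intro z _
    simp only [hT, WithLp.ofLp_smul, Pi.smul_apply, smul_eq_mul]
    ring
  refine ⟨Ω, hΩ, w, fun ω x => ∑ z, W x z * Ψ ω z, hw0, hw1, ?_, ?_, ?_, ?_⟩
  · intro ω x y
    refine (hWR (Ψ ω) (12 * R) (by positivity) (fun z => hsup ω z) x y).trans (le_of_eq ?_)
    rw [hR, hb]
    field_simp
    ring
  · intro ω x y
    have e : ∀ x, |∑ z, W x z * Ψ ω z| ≤ 12 * R := by
      intro x
      refine (Finset.abs_sum_le_sum_abs _ _).trans ?_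
      have : ∑ z, |W x z * Ψ ω z| ≤ ∑ z, W x z * (12 * R) := by
        apply Finset.sum_le_sum
        intro z _
        rw [abs_mul, abs_of_nonneg (hW0 x z)]
        exact mul_le_mul_of_nonneg_left (hsup ω z) (hW0 x z)
      refine this.trans ?_
      rw [← Finset.sum_mul, hW1, one_mul]
    have h1 := abs_sub (∑ z, W x z * Ψ ω z) (∑ z, W y z * Ψ ω z)
    have h2 := e x
    have h3 := e y
    have h4 : 48 * M * (2 ^ J) ^ 2 * r = 12 * R + 12 * R := by rw [hR]; ring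
    rw [h4]
    linarith
  · intro x y
    rw [← hTgen (fun ω => ∑ z, W x z * Ψ ω z) (fun ω => ∑ z, W y z * Ψ ω z), ← hTbar, ← hTbar]
    apply Real.rpow_le_rpow (norm_nonneg _) _ hP0
    refine (hlip x y).trans ?_
    have h1 : 32 * M * (1 + 16 * h) ≤ 160 * M ^ 2 := by nlinarith
    exact mul_le_mul_of_nonneg_right h1 (norm_nonneg _)
  · intro x y hxy1 hxy2
    rw [← hTgen (fun ω => ∑ z, W x z * Ψ ω z) (fun ω => ∑ z, W y z * Ψ ω z), ← hTbar, ← hTbar]
    apply Real.rpow_le_rpow (by positivity) _ hP0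
    have hdisp' : ∀ x, ‖∑ z, W x z • T z - T x‖ ≤ r / 128 := by
      intro x
      refine (hdisp x).trans ?_
      have e1 : 32 * M * (2 ^ J / b) * (2 * h) = r * h / (32 * M) := by
        rw [hb]; field_simp; ring
      rw [e1, div_le_div_iff₀ (by positivity) (by norm_num)]
      nlinarith
    have h1 := hdisp' x
    have h2 := hdisp' y
    have h3 := hTlow x y hxy2
    have h4 : ‖T x - T y‖ ≤ ‖∑ z, W x z • T z - T x‖ + ‖∑ z, W x z • T z - ∑ z, W y z • T z‖ +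
        ‖∑ z, W y z • T z - T y‖ := by
      have : T x - T y = -(∑ z, W x z • T z - T x) + (∑ z, W x z • T z - ∑ z, W y z • T z) +
        (∑ z, W y z • T z - T y) := by abel
      rw [this]
      refine (norm_add_le _ _).trans ?_
      gcongr
      refine (norm_add_le _ _).trans ?_
      rw [norm_neg]
    linarith

end Vale.Agent.P249
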