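import Mathlib
import Vale.Agent.P249.StageA
import Vale.Agent.P249.Contract
import Vale.Agent.P249.Sample

open scoped ENNReal

namespace Vale.Agent.P249

/-- averaging vector -/
noncomputable def avec (p : ℝ≥0∞) {N : ℕ} (f : Fin N → ℝ) : PiLp p (fun _ : Fin N => ℝ) :=
  WithLp.toLp p (fun i => (1 / (N : ℝ)) ^ (1 / p.toReal) * f i)

theorem avec_sub_rpow {p : ℝ≥0∞} [Fact (1 ≤ p)] (hp : p ≠ ∞) {N : ℕ} (hN : 0 < N)
    (f g : Fin N → ℝ) :
    ‖avec p f - avec p g‖ ^ p.toReal = (∑ i, |f i - g i| ^ p.toReal) / N := by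
  have hp0 : 0 < p.toReal := ENNReal.toReal_pos (by
    have := (Fact.out : 1 ≤ p); intro h; rw [h] at this; simp at this) hp
  have hN' : (0:ℝ) < N := by exact_mod_cast hN
  rw [pilp_rpow hp, Finset.sum_div]
  apply Finset.sum_congr rfl
  intro i _
  have hc : 0 ≤ (1 / (N : ℝ)) ^ (1 / p.toReal) := Real.rpow_nonneg (by positivity) _
  have e : (avec p f - avec p g) i = (1 / (N : ℝ)) ^ (1 / p.toReal) * (f i - g i) := by
    simp only [avec, PiLp.sub_apply]
    ring
  rw [e, abs_mul, abs_of_nonneg hc, Real.mul_rpow hc (abs_nonneg _),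
    ← Real.rpow_mul (by positivity), one_div_mul_cancel hp0.ne', Real.rpow_one]
  ring

/-- perturbation bound -/
theorem avec_lower {p : ℝ≥0∞} [Fact (1 ≤ p)] (hp : p ≠ ∞) {N : ℕ} (hN : 0 < N)
    (f g f' g' : Fin N → ℝ) (c : ℝ) (hc : 0 ≤ c)
    (h : ∀ i, |f i - g i| ≤ |f' i - g' i| + c) :
    ‖avec p f - avec p g‖ ≤ ‖avec p f' - avec p g'‖ + c := by
  have hp1 : 1 ≤ p.toReal := by
    have := ENNReal.toReal_mono hp (Fact.out : 1 ≤ p)
    simpa using this
  have hp0 : 0 < p.toReal := by linarith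
  have hN' : (0:ℝ) < N := by exact_mod_cast hN
  set cN := (1 / (N : ℝ)) ^ (1 / p.toReal) with hcN
  have hcN0 : 0 ≤ cN := Real.rpow_nonneg (by positivity) _
  have hcNP : cN ^ p.toReal = 1 / N := by
    rw [hcN, ← Real.rpow_mul (by positivity), one_div_mul_cancel hp0.ne', Real.rpow_one]
  have hnorm : ∀ f g : Fin N → ℝ, ‖avec p f - avec p g‖ =
      (∑ i, (cN * |f i - g i|) ^ p.toReal) ^ (1 / p.toReal) := by
    intro f g
    have h1 := avec_sub_rpow hp hN f g
    have h2 : ∑ i, (cN * |f i - g i|) ^ p.toReal = ‖avec p f - avec p g‖ ^ p.toReal := by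
      rw [h1, Finset.sum_div]
      apply Finset.sum_congr rfl
      intro i _
      rw [Real.mul_rpow hcN0 (abs_nonneg _), hcNP]
      ring
    rw [h2, ← Real.rpow_mul (norm_nonneg _), mul_one_div_cancel hp0.ne', Real.rpow_one]
  rw [hnorm, hnorm]
  have h3 : (∑ i, (cN * |f i - g i|) ^ p.toReal) ^ (1 / p.toReal) ≤
      (∑ i, (cN * |f' i - g' i| + cN * c) ^ p.toReal) ^ (1 / p.toReal) := by
    apply Real.rpow_le_rpow (Finset.sum_nonneg fun i _ => Real.rpow_nonneg
      (mul_nonneg hcN0 (abs_nonneg _)) _) _ (by positivity)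
    apply Finset.sum_le_sum
    intro i _
    apply Real.rpow_le_rpow (mul_nonneg hcN0 (abs_nonneg _)) _ hp0.le
    rw [← mul_add]
    exact mul_le_mul_of_nonneg_left (h i) hcN0
  refine h3.trans ?_
  refine (Real.Lp_add_le_of_nonneg Finset.univ hp1 (fun i _ => mul_nonneg hcN0 (abs_nonneg _))
    (fun i _ => mul_nonneg hcN0 hc)).trans ?_
  apply add_le_add le_rfl
  rw [Finset.sum_const, Finset.card_univ, Fintype.card_fin, nsmul_eq_mul,
    Real.mul_rpow hcN0 hc, hcNP]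
  have : (N : ℝ) * (1 / N * c ^ p.toReal) = c ^ p.toReal := by field_simp
  rw [this, ← Real.rpow_mul hc, mul_one_div_cancel hp0.ne', Real.rpow_one]

theorem single_scale (p : ℝ≥0∞) [Fact (1 ≤ p)] (hp : p ≠ ∞) {X : Type} [Fintype X] [Nonempty X]
    {I : Type} [Fintype I] (v : X → PiLp p (fun _ : I => ℝ)) (J : ℕ) (hJ : 0 < J) (M : ℝ)
    (hM1 : 1 ≤ M) (hM : 4 * (Real.log (Fintype.card X) / J) ≤ M)
    (G1 : ℝ) (hG1 : G1 = 344064 * M ^ 3 * (2 ^ J) ^ 3) (N : ℕ) (hN0 : 0 < N)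
    (hN : 2 * ((Fintype.card X : ℝ) * (Fintype.card X : ℝ)) <
      Real.exp (((1 / (64 * G1)) ^ p.toReal / 2) ^ 2 * N / 4))
    (r : ℝ) (hr : 0 < r) :
    ∃ F : X → PiLp p (fun _ : Fin N => ℝ),
      (∀ x y, ‖F x - F y‖ ≤ 320 * M ^ 2 * ‖v x - v y‖) ∧
      (∀ x y, r ≤ ‖v x - v y‖ → ‖v x - v y‖ ≤ 2 ^ J * r →
        1 / 256 * ‖v x - v y‖ ≤ ‖F x - F y‖) ∧
      (∀ x y, ‖F x - F y‖ ≤ 48 * M * (2 ^ J) ^ 2 * r) ∧
      (∀ x y, ‖v x - v y‖ ≤ r / (256 * (Fintype.card X : ℝ) ^ 2 * G1) → F x = F y) := by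
  classical
  have hP := one_le_toReal hp
  set P := p.toReal with hPd
  have hP0 : 0 ≤ P := by linarith
  have hPpos : 0 < P := by linarith
  have hM0 : 0 < M := by linarith
  have hG1pos : 0 < G1 := by rw [hG1]; positivity
  have hN' : (0:ℝ) < N := by exact_mod_cast hN0
  have hn0 : (0:ℝ) < Fintype.card X := by exact_mod_cast Fintype.card_pos
  obtain ⟨Ω, hΩ, w, Ψ, hw0, hw1, hpt, hbd, hup, hlow⟩ := stageA p hp v J hJ M hM1 hM r hr
  rw [← hPd] at hup hlow
  rw [← hG1] at hpt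
  set δ := (1 / (64 * G1)) ^ P / 2 with hδ
  have hδpos : 0 < δ := by
    rw [hδ]
    exact div_pos (Real.rpow_pos_of_pos (by positivity) P) (by norm_num)
  have hG1ge : 1 ≤ G1 := by
    rw [hG1]
    have h1 : (1:ℝ) ≤ M ^ 3 := one_le_pow₀ hM1
    have h2 : (1:ℝ) ≤ (2 ^ J) ^ 3 := one_le_pow₀ (one_le_pow₀ (by norm_num))
    nlinarith
  have hδ1 : δ ≤ 1 := by
    have : (1 / (64 * G1)) ^ P ≤ 1 := by
      apply Real.rpow_le_one (by positivity) _ hP0
      rw [div_le_one (by positivity)]; linarith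
    rw [hδ]; linarith
  set Y : X × X → Ω → ℝ := fun q ω => (|Ψ ω q.1 - Ψ ω q.2| / (G1 * ‖v q.1 - v q.2‖)) ^ P with hY
  have hY0 : ∀ q ω, 0 ≤ Y q ω := fun q ω => Real.rpow_nonneg (by positivity) _
  have hY1 : ∀ q ω, Y q ω ≤ 1 := fun q ω => by
    apply Real.rpow_le_one (by positivity) _ hP0
    apply div_le_one_of_le₀ _ (by positivity)
    exact hpt ω q.1 q.2
  obtain ⟨s, hs⟩ := sampling w hw0 hw1 Y hY0 hY1 δ hδpos hδ1 N hN0 (by
    rw [Fintype.card_prod]; push_cast; exact hN)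
  -- averages
  have havg : ∀ x y, |(∑ i, |Ψ (s i) x - Ψ (s i) y| ^ P) / N -
      ∑ ω, w ω * |Ψ ω x - Ψ ω y| ^ P| ≤ (1 / 64 * ‖v x - v y‖) ^ P / 2 := by
    intro x y
    have hYe : ∀ ω, |Ψ ω x - Ψ ω y| ^ P = (G1 * ‖v x - v y‖) ^ P * Y (x, y) ω := by
      intro ω
      rw [hY]
      simp only
      rw [Real.div_rpow (abs_nonneg _) (by positivity)]
      rcases eq_or_lt_of_le (norm_nonneg (v x - v y)) with h0 | h0
      · have h1 := hpt ω x y
        rw [← h0, mul_zero] at h1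
        have h2 : |Ψ ω x - Ψ ω y| = 0 := le_antisymm h1 (abs_nonneg _)
        rw [h2, Real.zero_rpow hPpos.ne']
        simp
      · have : (G1 * ‖v x - v y‖) ^ P ≠ 0 := (Real.rpow_pos_of_pos (by positivity) P).ne'
        field_simp
    have h1 := hs (x, y)
    have e1 : (∑ i, |Ψ (s i) x - Ψ (s i) y| ^ P) / N - ∑ ω, w ω * |Ψ ω x - Ψ ω y| ^ P =
        (G1 * ‖v x - v y‖) ^ P * ((∑ i, Y (x, y) (s i)) / N - ∑ ω, w ω * Y (x, y) ω) := by
      simp only [hYe]
      rw [← Finset.mul_sum, mul_sub, mul_div_assoc]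
      congr 1
      rw [Finset.mul_sum]
      apply Finset.sum_congr rfl
      intro ω _
      ring
    rw [e1, abs_mul, abs_of_nonneg (Real.rpow_nonneg (by positivity) _)]
    have h2 := mul_le_mul_of_nonneg_left h1
      (Real.rpow_nonneg (by positivity : 0 ≤ G1 * ‖v x - v y‖) P)
    refine h2.trans (le_of_eq ?_)
    rw [hδ, ← mul_div_assoc, ← Real.mul_rpow (by positivity) (by positivity)]
    congr 2
    field_simp
  -- contraction
  set θ := r / (256 * (Fintype.card X : ℝ) ^ 2) with hθ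
  have hθ0 : 0 ≤ θ := by positivity
  choose ψ hψ1 hψ2 hψ3 using fun i : Fin N => contraction (fun x => Ψ (s i) x) θ hθ0
  have hnθ : (Fintype.card X : ℝ) ^ 2 * θ = r / 256 := by
    rw [hθ]; field_simp
  refine ⟨fun x => avec p (fun i => ψ i x), ?_, ?_, ?_, ?_⟩
  · intro x y
    have h1 : ‖avec p (fun i => ψ i x) - avec p (fun i => ψ i y)‖ ^ P ≤
        (320 * M ^ 2 * ‖v x - v y‖) ^ P := by
      rw [avec_sub_rpow hp hN0]
      have h2 : (∑ i, |ψ i x - ψ i y| ^ P) / N ≤ (∑ i, |Ψ (s i) x - Ψ (s i) y| ^ P) / N := by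
        apply div_le_div_of_nonneg_right _ hN'.le
        apply Finset.sum_le_sum
        intro i _
        exact Real.rpow_le_rpow (abs_nonneg _) (hψ1 i x y) hP0
      refine h2.trans ?_
      have h3 := (abs_le.mp (havg x y)).2
      have h4 := hup x y
      have h5 : (1 / 64 * ‖v x - v y‖) ^ P ≤ (160 * M ^ 2 * ‖v x - v y‖) ^ P := by
        apply Real.rpow_le_rpow (by positivity) _ hP0
        apply mul_le_mul_of_nonneg_right _ (norm_nonneg _)
        nlinarith
      have h6 : 2 * (160 * M ^ 2 * ‖v x - v y‖) ^ P ≤ (320 * M ^ 2 * ‖v x - v y‖) ^ P := by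
        have e6 : 320 * M ^ 2 * ‖v x - v y‖ = 2 * (160 * M ^ 2 * ‖v x - v y‖) := by ring
        rw [e6, Real.mul_rpow (by norm_num : (0:ℝ) ≤ 2) (by positivity)]
        apply mul_le_mul_of_nonneg_right _ (Real.rpow_nonneg (by positivity) _)
        have := Real.rpow_le_rpow_of_exponent_le (by norm_num : (1:ℝ) ≤ 2) hP
        rwa [Real.rpow_one] at this
      have h7 : 0 ≤ (160 * M ^ 2 * ‖v x - v y‖) ^ P := Real.rpow_nonneg (by positivity) _
      linarith
    exact (Real.rpow_le_rpow_iff (norm_nonneg _) (by positivity) hPpos).mp h1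
  · intro x y hxy1 hxy2
    have h1 : (1 / 128 * ‖v x - v y‖) ^ P ≤
        ‖avec p (fun i => Ψ (s i) x) - avec p (fun i => Ψ (s i) y)‖ ^ P := by
      rw [avec_sub_rpow hp hN0]
      have h3 := (abs_le.mp (havg x y)).1
      have h4 := hlow x y hxy1 hxy2
      have h6 : 2 * (1 / 128 * ‖v x - v y‖) ^ P ≤ (1 / 64 * ‖v x - v y‖) ^ P := by
        have e6 : 1 / 64 * ‖v x - v y‖ = 2 * (1 / 128 * ‖v x - v y‖) := by ring
        rw [e6, Real.mul_rpow (by norm_num : (0:ℝ) ≤ 2) (by positivity)]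
        apply mul_le_mul_of_nonneg_right _ (Real.rpow_nonneg (by positivity) _)
        have := Real.rpow_le_rpow_of_exponent_le (by norm_num : (1:ℝ) ≤ 2) hP
        rwa [Real.rpow_one] at this
      rw [← hPd]
      linarith
    have h2 := (Real.rpow_le_rpow_iff (by positivity) (norm_nonneg _) hPpos).mp h1
    have h3 := avec_lower hp hN0 (fun i => Ψ (s i) x) (fun i => Ψ (s i) y)
      (fun i => ψ i x) (fun i => ψ i y) (r / 256) (by positivity) (fun i => by
        have := hψ3 i x y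
        rw [hnθ] at this
        linarith)
    linarith
  · intro x y
    have h1 : ‖avec p (fun i => ψ i x) - avec p (fun i => ψ i y)‖ ^ P ≤
        (48 * M * (2 ^ J) ^ 2 * r) ^ P := by
      rw [avec_sub_rpow hp hN0, div_le_iff₀ hN']
      have h2 : ∑ i, |ψ i x - ψ i y| ^ P ≤ ∑ _i : Fin N, (48 * M * (2 ^ J) ^ 2 * r) ^ P := by
        apply Finset.sum_le_sum
        intro i _
        exact Real.rpow_le_rpow (abs_nonneg _) ((hψ1 i x y).trans (hbd (s i) x y)) hP0
      refine h2.trans (le_of_eq ?_)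
      simp [mul_comm]
    exact (Real.rpow_le_rpow_iff (norm_nonneg _) (by positivity) hPpos).mp h1
  · intro x y hxy
    have h1 : ∀ i, ψ i x = ψ i y := by
      intro i
      apply hψ2 i x y
      refine (hpt (s i) x y).trans ?_
      rw [hθ]
      rw [le_div_iff₀ (by positivity)] at hxy ⊢
      linarith
    simp only [h1]

end Vale.Agent.P249
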