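import Mathlib
import Vale.Agent.P249.Scale
import Vale.Agent.P249.Glue

open scoped ENNReal
open MeasureTheory

namespace Vale.Agent.P249

universe u

/-- finite dimensional version with explicit parameters -/
theorem assemble_fin (p : ℝ≥0∞) [Fact (1 ≤ p)] (hp : p ≠ ∞) {X : Type} [Fintype X] [Nonempty X]
    {I : Type} [Fintype I] (v : X → PiLp p (fun _ : I => ℝ)) (hv : Function.Injective v)
    (J : ℕ) (hJ : 0 < J) (M : ℝ)
    (hM1 : 1 ≤ M) (hM : 4 * (Real.log (Fintype.card X) / J) ≤ M)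
    (G1 : ℝ) (hG1 : G1 = 344064 * M ^ 3 * (2 ^ J) ^ 3) (N : ℕ) (hN0 : 0 < N)
    (hN : 2 * ((Fintype.card X : ℝ) * (Fintype.card X : ℝ)) <
      Real.exp (((1 / (64 * G1)) ^ p.toReal / 2) ^ 2 * N / 4))
    (B : ℕ) (hB : 256 * (Fintype.card X : ℝ) ^ 2 * G1 * 2 ^ J ≤ (2 ^ J) ^ B)
    (hBQ : 49152 * M * (2 ^ J) ^ 2 ≤ (2 ^ J) ^ B) :
    ∃ F : X → PiLp p (fun _ : Fin (B * N) => ℝ),
      ∀ x y, 1 / 512 * ‖v x - v y‖ ≤ ‖F x - F y‖ ∧
        ‖F x - F y‖ ≤ B * (641 * M ^ 2) * ‖v x - v y‖ := by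
  classical
  have hP := one_le_toReal hp
  set P := p.toReal with hPd
  have hP0 : 0 ≤ P := by linarith
  have hPpos : 0 < P := by linarith
  have hM0 : 0 < M := by linarith
  have hG1pos : 0 < G1 := by rw [hG1]; positivity
  have hG1ge : 1 ≤ G1 := by
    rw [hG1]
    have h1 : (1:ℝ) ≤ M ^ 3 := one_le_pow₀ hM1
    have h2 : (1:ℝ) ≤ (2 ^ J) ^ 3 := one_le_pow₀ (one_le_pow₀ (by norm_num))
    nlinarith
  have hn1 : (1:ℝ) ≤ Fintype.card X := by exact_mod_cast Fintype.card_pos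
  have hn2 : (1:ℝ) ≤ (Fintype.card X : ℝ) ^ 2 := one_le_pow₀ hn1
  have hA2 : (2:ℝ) ≤ 2 ^ J := by
    calc (2:ℝ) = 2 ^ 1 := (pow_one _).symm
      _ ≤ 2 ^ J := pow_le_pow_right₀ (by norm_num) hJ
  obtain ⟨F, hF1, hF2⟩ := gluing (fun x y => ‖v x - v y‖) (fun x => by simp)
    (fun x y hxy => norm_pos_iff.mpr (sub_ne_zero.mpr (fun h => hxy (hv h))))
    (E := PiLp p (fun _ : Fin N => ℝ)) (2 ^ J) (320 * M ^ 2) (48 * M * (2 ^ J) ^ 2)
    (256 * (Fintype.card X : ℝ) ^ 2 * G1) (1 / 256) hA2 (by positivity) (by positivity)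
    (by nlinarith) (by norm_num) (by norm_num) B hB (by linarith)
    (fun r hr => by
      obtain ⟨F, h1, h2, h3, h4⟩ := single_scale p hp v J hJ M hM1 hM G1 hG1 N hN0 hN r hr
      exact ⟨F, h1, h2, h3, h4⟩)
  have hBpos : 0 < B := by
    rcases Nat.eq_zero_or_pos B with h | h
    · exfalso
      rw [h, pow_zero] at hBQ
      have : (1:ℝ) ≤ (2 ^ J) ^ 2 := one_le_pow₀ (by linarith)
      nlinarith
    · exact h
  have hB1 : (1:ℝ) ≤ B := by exact_mod_cast hBpos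
  set Fx : X → PiLp p (fun _ : Fin (B * N) => ℝ) := fun x =>
    WithLp.toLp p (fun k => F x (finProdFinEquiv.symm k).1 (finProdFinEquiv.symm k).2) with hFx
  have hnorm : ∀ x y, ‖Fx x - Fx y‖ ^ P = ∑ b, ‖F x b - F y b‖ ^ P := by
    intro x y
    rw [pilp_rpow hp]
    have e1 : ∀ k, |(Fx x - Fx y) k| ^ p.toReal = |(F x (finProdFinEquiv.symm k).1 -
        F y (finProdFinEquiv.symm k).1) (finProdFinEquiv.symm k).2| ^ p.toReal := by
      intro k
      simp only [hFx, PiLp.sub_apply]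
    rw [Finset.sum_congr rfl (fun k _ => e1 k)]
    rw [Equiv.sum_comp finProdFinEquiv.symm (fun q : Fin B × Fin N =>
      |(F x q.1 - F y q.1) q.2| ^ p.toReal), Fintype.sum_prod_type]
    apply Finset.sum_congr rfl
    intro b _
    rw [hPd, pilp_rpow hp]
  refine ⟨Fx, fun x y => ⟨?_, ?_⟩⟩
  · obtain ⟨b, hb⟩ := hF2 x y
    have h1 : (1 / 512 * ‖v x - v y‖) ^ P ≤ ‖Fx x - Fx y‖ ^ P := by
      rw [hnorm]
      have h2 : (1 / 512 * ‖v x - v y‖) ^ P ≤ ‖F x b - F y b‖ ^ P := by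
        apply Real.rpow_le_rpow (by positivity) _ hP0
        linarith
      exact h2.trans (Finset.single_le_sum (f := fun b => ‖F x b - F y b‖ ^ P)
        (fun b _ => Real.rpow_nonneg (norm_nonneg _) _) (Finset.mem_univ b))
    exact (Real.rpow_le_rpow_iff (by positivity) (norm_nonneg _) hPpos).mp h1
  · have h1 : ‖Fx x - Fx y‖ ^ P ≤ (B * (641 * M ^ 2) * ‖v x - v y‖) ^ P := by
      rw [hnorm]
      have h2 : ∑ b, ‖F x b - F y b‖ ^ P ≤ ∑ _b : Fin B, (641 * M ^ 2 * ‖v x - v y‖) ^ P := by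
        apply Finset.sum_le_sum
        intro b _
        apply Real.rpow_le_rpow (norm_nonneg _) _ hP0
        refine (hF1 x y b).trans ?_
        apply mul_le_mul_of_nonneg_right _ (norm_nonneg _)
        nlinarith
      refine h2.trans ?_
      rw [Finset.sum_const, Finset.card_univ, Fintype.card_fin, nsmul_eq_mul, mul_assoc (B:ℝ),
        Real.mul_rpow (by positivity : (0:ℝ) ≤ B) (by positivity)]
      apply mul_le_mul_of_nonneg_right _ (Real.rpow_nonneg (by positivity) _)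
      have := Real.rpow_le_rpow_of_exponent_le hB1 hP
      rwa [Real.rpow_one] at this
    exact (Real.rpow_le_rpow_iff (norm_nonneg _) (by positivity) hPpos).mp h1

end Vale.Agent.P249
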