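import Mathlib

open MeasureTheory
open scoped ENNReal

namespace Vale.Agent.P249

universe u v

/-- The map `f` from the finite subset `X` of the normed space `E` into the normed space `F`
has distortion at most `D`. -/
def DistortionLE {E : Type u} {F : Type v} [NormedAddCommGroup E] [NormedAddCommGroup F]
    (X : Finset E) (f : X → F) (D : ℝ) : Prop :=
  ∃ s : ℝ, 0 < s ∧ ∀ x y : X,
    s * ‖(x : E) - (y : E)‖ ≤ ‖f x - f y‖ ∧ ‖f x - f y‖ ≤ D * s * ‖(x : E) - (y : E)‖

/-- The finite subset `X` of a normed space admits a map into `ℓ_p^d` of distortion at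
most `D`. -/
def HasMap (p : ℝ≥0∞) [Fact (1 ≤ p)] {E : Type u} [NormedAddCommGroup E]
    (X : Finset E) (d : ℕ) (D : ℝ) : Prop :=
  ∃ f : X → PiLp p (fun _ : Fin d => ℝ), DistortionLE X f D

/-- Every `n`-point subset of every `L_p(μ)` admits a map into `ℓ_p^d` of distortion at
most `D`. -/
def Suffices (p : ℝ≥0∞) [Fact (1 ≤ p)] (n : ℕ) (D : ℝ) (d : ℕ) : Prop :=
  ∀ (α : Type u) (_ : MeasurableSpace α) (μ : Measure α) (X : Finset (Lp ℝ p μ)),
    X.card = n → HasMap p X d D

/-- The quantity `d_p(n, D)`: the least `d` that suffices. -/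
noncomputable def dimLp (p : ℝ≥0∞) [Fact (1 ≤ p)] (n : ℕ) (D : ℝ) : ℕ :=
  sInf {d | Suffices.{u} p n D d}

end Vale.Agent.P249
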