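import Mathlib

open scoped ENNReal

namespace Vale.Agent.P249

universe u

/-- The finite subset `X` of the normed space `E` has a map `f` into `ℓ_p^d` (values of `f`
outside `X` are irrelevant) with `‖x - y‖ ≤ ‖f x - f y‖ ≤ D ‖x - y‖` on `X`. -/
def EmbedsInto (p : ℝ≥0∞) [Fact (1 ≤ p)] {E : Type u} [NormedAddCommGroup E]
    (X : Finset E) (d : ℕ) (D : ℝ) : Prop :=
  ∃ f : E → PiLp p (fun _ : Fin d => ℝ), ∀ x ∈ X, ∀ y ∈ X,
    ‖x - y‖ ≤ ‖f x - f y‖ ∧ ‖f x - f y‖ ≤ D * ‖x - y‖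

end Vale.Agent.P249
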