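import Mathlib

namespace Vale.Agent.P249

theorem ev_log (C s : ℝ) (hs : 0 < s) :
    ∀ᶠ n : ℕ in Filter.atTop, C * (3 * Real.log n + 1) ≤ (n : ℝ) ^ s := by
  have h1 : (fun x : ℝ => Real.log x) =o[Filter.atTop] (fun x : ℝ => x ^ s) :=
    isLittleO_log_rpow_atTop hs
  have h2 : (fun _ : ℝ => (1 : ℝ)) =o[Filter.atTop] (fun x : ℝ => x ^ s) := by
    apply Asymptotics.isLittleO_const_left.mpr
    right
    exact tendsto_norm_atTop_atTop.comp (tendsto_rpow_atTop hs)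
  have h3 : (fun x : ℝ => C * (3 * Real.log x + 1)) =o[Filter.atTop] (fun x : ℝ => x ^ s) :=
    ((h1.const_mul_left 3).add h2).const_mul_left C
  have h4 := h3.bound (by norm_num : (0:ℝ) < 1)
  have h5 := tendsto_natCast_atTop_atTop (R := ℝ) |>.eventually h4
  filter_upwards [h5] with n hn
  have h6 : ‖(n : ℝ) ^ s‖ = (n : ℝ) ^ s := Real.norm_of_nonneg (Real.rpow_nonneg (Nat.cast_nonneg n) s)
  rw [h6, one_mul] at hn
  exact (le_abs_self _).trans hn

theorem params_nb (P ε l n : ℝ) (J b : ℕ) (hPε : 0 < P / ε)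
    (hexpl : Real.exp l = n) (hlJ : l ≤ 16 * P / ε * J) (hbge : 48 * P / ε ≤ b) :
    n ^ 2 ≤ (2 ^ J) ^ b := by
  have e1 : n ^ 2 = Real.exp (2 * l) := by
    rw [← hexpl, ← Real.exp_nat_mul]; norm_num
  have e2 : ((2:ℝ) ^ J) ^ b = Real.exp (Real.log 2 * ((J * b : ℕ) : ℝ)) := by
    rw [← pow_mul, Real.exp_mul, Real.exp_log (by norm_num), Real.rpow_natCast]
  rw [e1, e2]
  apply Real.exp_le_exp.mpr
  have h10 := Real.log_two_gt_d9
  have hJ0 : (0:ℝ) ≤ J := Nat.cast_nonneg J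
  have h13 : 48 * (P / ε) * Real.log 2 ≤ b * Real.log 2 := by
    apply mul_le_mul_of_nonneg_right _ (by linarith)
    have : 48 * (P / ε) = 48 * P / ε := by ring
    rw [this]; exact hbge
  have h14 : 32 * (P / ε) ≤ 48 * (P / ε) * Real.log 2 := by
    have e4 : 48 * (P / ε) * Real.log 2 = (P / ε) * (48 * Real.log 2) := by ring
    rw [e4, mul_comm 32]
    apply mul_le_mul_of_nonneg_left _ hPε.le
    linarith
  have h15 : 32 * (P / ε) * J ≤ b * Real.log 2 * J :=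
    mul_le_mul_of_nonneg_right (h14.trans h13) hJ0
  have h16 : 2 * l ≤ 32 * (P / ε) * J := by
    have e : 32 * (P / ε) * J = 2 * (16 * P / ε * J) := by ring
    rw [e]; linarith
  push_cast
  calc 2 * l ≤ 32 * (P / ε) * J := h16
    _ ≤ b * Real.log 2 * J := h15
    _ = Real.log 2 * (J * b) := by ring

theorem params_D0 (P ε l n M : ℝ) (J : ℕ) (hP : 0 < P) (hε : 0 < ε) (hl : 0 < l) (hM : 0 < M)
    (hexpl : Real.exp l = n)
    (hJle : (J : ℝ) ≤ ε * l / (16 * P) + 1) :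
    (64 * (344064 * M ^ 3 * (2 ^ J) ^ 3)) ^ (2 * P) ≤
      (64 * (344064 * M ^ 3)) ^ (2 * P) * 8 ^ (2 * P) * n ^ (ε / 2) := by
  have e6 : 64 * (344064 * M ^ 3 * (2 ^ J) ^ 3) = (64 * (344064 * M ^ 3)) * (2 ^ J) ^ 3 := by ring
  rw [e6, Real.mul_rpow (by positivity) (by positivity), mul_assoc]
  apply mul_le_mul_of_nonneg_left _ (by positivity)
  have e7 : ((2:ℝ) ^ J) ^ 3 = Real.exp (Real.log 8 * J) := by
    rw [Real.exp_mul, Real.exp_log (by norm_num), Real.rpow_natCast,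
      ← pow_mul, mul_comm J 3, pow_mul]
    norm_num
  have e8 : (8:ℝ) ^ (2 * P) = Real.exp (Real.log 8 * (2 * P)) := by
    rw [Real.exp_mul, Real.exp_log (by norm_num)]
  have e9 : n ^ (ε / 2) = Real.exp (l * (ε / 2)) := by
    rw [Real.exp_mul, hexpl]
  rw [e7, e8, e9, ← Real.exp_mul, ← Real.exp_add]
  apply Real.exp_le_exp.mpr
  have hlog8 : Real.log 8 ≤ 2.1 := by
    have : Real.log 8 = 3 * Real.log 2 := by
      rw [show (8:ℝ) = 2 ^ 3 by norm_num, Real.log_pow]; norm_num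
    have h := Real.log_two_lt_d9
    rw [this]; linarith
  have hlog80 : 0 < Real.log 8 := Real.log_pos (by norm_num)
  have h18 : Real.log 8 * J * (2 * P) ≤ Real.log 8 * (ε * l / (16 * P) + 1) * (2 * P) := by
    apply mul_le_mul_of_nonneg_right _ (by positivity)
    exact mul_le_mul_of_nonneg_left hJle hlog80.le
  have h19 : Real.log 8 * (ε * l / (16 * P) + 1) * (2 * P) =
      Real.log 8 * (2 * P) + (ε * l) * (Real.log 8 / 8) := by
    field_simp; ring
  have h20 : (ε * l) * (Real.log 8 / 8) ≤ l * (ε / 2) := by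
    have h21 : 0 < ε * l := by positivity
    have h22 : Real.log 8 / 8 ≤ 1 / 2 := by linarith
    have := mul_le_mul_of_nonneg_left h22 h21.le
    linarith
  linarith

theorem params_exp (P G1 l n : ℝ) (N : ℕ) (hG1 : 0 < G1) (hl : 0 < l) (hn : 0 < n) (hn1 : 1 ≤ n)
    (hexpl : Real.exp l = n)
    (hNge : 16 * (64 * G1) ^ (2 * P) * (3 * l + 1) ≤ N) :
    2 * (n * n) < Real.exp (((1 / (64 * G1)) ^ P / 2) ^ 2 * N / 4) := by
  set D0 := (64 * G1) ^ (2 * P) with hD0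
  have hD0pos : 0 < D0 := Real.rpow_pos_of_pos (by positivity) _
  have hδ : ((1 / (64 * G1)) ^ P / 2) ^ 2 = 1 / (4 * D0) := by
    rw [hD0, div_pow, ← Real.rpow_natCast ((1 / (64 * G1)) ^ P) 2, ← Real.rpow_mul (by positivity),
      Real.div_rpow (by norm_num) (by positivity), Real.one_rpow]
    have : P * ((2 : ℕ) : ℝ) = 2 * P := by push_cast; ring
    rw [this]
    field_simp
    norm_num
  rw [hδ]
  have h5 : 3 * l + 1 ≤ 1 / (4 * D0) * N / 4 := by
    have := mul_le_mul_of_nonneg_left hNge (by positivity : 0 ≤ 1 / (4 * D0) / 4)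
    have e : 1 / (4 * D0) / 4 * (16 * D0 * (3 * l + 1)) = 3 * l + 1 := by
      field_simp; norm_num
    linarith
  have h6 := Real.exp_le_exp.mpr h5
  have h7 : Real.exp (3 * l + 1) = n ^ 3 * Real.exp 1 := by
    rw [Real.exp_add]
    congr 1
    rw [← hexpl, ← Real.exp_nat_mul]
    norm_num
  have h8 : (2:ℝ) < Real.exp 1 := by
    have := Real.exp_one_gt_d9; linarith
  have h9 : n * n ≤ n ^ 3 := by nlinarith [mul_pos hn hn]
  rw [h7] at h6
  refine lt_of_lt_of_le ?_ h6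
  have : 0 < n ^ 3 := by positivity
  nlinarith

theorem params (P ε : ℝ) (hP : 1 ≤ P) (hε0 : 0 < ε) (hε1 : ε ≤ 1) :
    ∃ n₀ : ℕ, ∀ n : ℕ, n₀ ≤ n → ∃ J N B : ℕ, 0 < J ∧ 0 < N ∧
      4 * (Real.log n / J) ≤ 64 * P / ε ∧
      2 * ((n : ℝ) * n) < Real.exp (((1 / (64 * (344064 * (64 * P / ε) ^ 3 * (2 ^ J) ^ 3))) ^ P
        / 2) ^ 2 * N / 4) ∧
      256 * (n : ℝ) ^ 2 * (344064 * (64 * P / ε) ^ 3 * (2 ^ J) ^ 3) * 2 ^ J ≤ (2 ^ J) ^ B ∧
      49152 * (64 * P / ε) * (2 ^ J) ^ 2 ≤ (2 ^ J) ^ B ∧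
      (B : ℝ) ≤ 54 * P / ε ∧ (B : ℝ) * N ≤ (n : ℝ) ^ ε := by
  set M := 64 * P / ε with hM
  have hP0 : 0 < P := by linarith
  have hMpos : 0 < M := by positivity
  have hPε : 1 ≤ P / ε := by rw [le_div_iff₀ hε0]; linarith
  have hM64 : 64 ≤ M := by
    rw [hM, mul_div_assoc]; linarith
  set K0 := 256 * 344064 * M ^ 3 with hK0
  have hK0pos : 0 < K0 := by positivity
  set C := 54 * P / ε * (17 * ((64 * (344064 * M ^ 3)) ^ (2 * P) * 8 ^ (2 * P))) with hC
  have hev1 := ev_log C (ε / 2) (by linarith)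
  have hlog : Filter.Tendsto (fun n : ℕ => Real.log n) Filter.atTop Filter.atTop :=
    Real.tendsto_log_atTop.comp tendsto_natCast_atTop_atTop
  have hev2 := hlog.eventually_ge_atTop (16 * P * K0 / ε)
  have hev3 := hlog.eventually_ge_atTop (1 : ℝ)
  obtain ⟨n₀, hn₀⟩ := Filter.eventually_atTop.mp (hev1.and (hev2.and hev3))
  refine ⟨max n₀ 1, fun n hn => ?_⟩
  obtain ⟨h1, h2, h3⟩ := hn₀ n (le_trans (le_max_left _ _) hn)
  have hn1 : 1 ≤ n := le_trans (le_max_right _ _) hn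
  have hn1R : (1:ℝ) ≤ n := by exact_mod_cast hn1
  have hn0R : (0:ℝ) < n := by linarith
  set l := Real.log n with hl
  have hl0 : 0 < l := by linarith
  have hexpl : Real.exp l = n := Real.exp_log hn0R
  set J := ⌈ε * l / (16 * P)⌉₊ with hJ
  have hJge : ε * l / (16 * P) ≤ J := Nat.le_ceil _
  have hJle : (J : ℝ) ≤ ε * l / (16 * P) + 1 := (Nat.ceil_lt_add_one (by positivity)).le
  have hJpos : 0 < J := Nat.ceil_pos.mpr (by positivity)
  have hJposR : (0:ℝ) < J := by exact_mod_cast hJpos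
  have hlJ : l ≤ 16 * P / ε * J := by
    rw [div_le_iff₀ (by positivity)] at hJge
    have : 16 * P / ε * J = (J * (16 * P)) / ε := by ring
    rw [this, le_div_iff₀ hε0]
    linarith
  have hK0J : K0 ≤ (2:ℝ) ^ J := by
    have h4 : K0 ≤ J := by
      refine le_trans ?_ hJge
      rw [le_div_iff₀ (by positivity)]
      have := mul_le_mul_of_nonneg_left h2 hε0.le
      have e : ε * (16 * P * K0 / ε) = K0 * (16 * P) := by field_simp
      linarith
    have h5 : (J : ℝ) ≤ 2 ^ J := by exact_mod_cast (Nat.lt_two_pow_self (n := J)).le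
    linarith
  set G1 := 344064 * M ^ 3 * (2 ^ J) ^ 3 with hG1
  have hG1pos : 0 < G1 := by positivity
  set D0 := (64 * G1) ^ (2 * P) with hD0
  have hD0pos : 0 < D0 := Real.rpow_pos_of_pos (by positivity) _
  have hD01 : 1 ≤ D0 := by
    apply Real.one_le_rpow _ (by positivity)
    have : (1:ℝ) ≤ (2 ^ J) ^ 3 := one_le_pow₀ (one_le_pow₀ (by norm_num))
    have : (1:ℝ) ≤ M ^ 3 := one_le_pow₀ (by linarith)
    nlinarith
  set N := ⌈16 * D0 * (3 * l + 1)⌉₊ with hN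
  have hNge : 16 * D0 * (3 * l + 1) ≤ N := Nat.le_ceil _
  have hNle : (N : ℝ) ≤ 16 * D0 * (3 * l + 1) + 1 := (Nat.ceil_lt_add_one (by positivity)).le
  have hNpos : 0 < N := Nat.ceil_pos.mpr (by positivity)
  set b := ⌈48 * P / ε⌉₊ with hb
  have hbge : 48 * P / ε ≤ b := Nat.le_ceil _
  have hble : (b : ℝ) ≤ 48 * P / ε + 1 := (Nat.ceil_lt_add_one (by positivity)).le
  have hB54 : ((b + 5 : ℕ) : ℝ) ≤ 54 * P / ε := by
    push_cast
    have : 54 * P / ε = 48 * P / ε + 6 * (P / ε) := by ring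
    rw [this]; linarith
  have hD0le := params_D0 P ε l n M J hP0 hε0 hl0 hMpos hexpl hJle
  rw [← hG1, ← hD0] at hD0le
  have hN17 : (N : ℝ) ≤ 17 * (D0 * (3 * l + 1)) := by
    have : 1 ≤ D0 * (3 * l + 1) := by nlinarith
    linarith
  refine ⟨J, N, b + 5, hJpos, hNpos, ?_, ?_, ?_, ?_, hB54, ?_⟩
  · have : l / J ≤ 16 * P / ε := by rw [div_le_iff₀ hJposR]; exact hlJ
    rw [hM]
    have e : 64 * P / ε = 4 * (16 * P / ε) := by ring
    rw [e]; linarith
  · exact params_exp P G1 l n N hG1pos hl0 hn0R hn1R hexpl hNge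
  · have hnb := params_nb P ε l n J b (by positivity) hexpl hlJ hbge
    have e5 : 256 * (n : ℝ) ^ 2 * G1 * 2 ^ J = K0 * (n : ℝ) ^ 2 * ((2 ^ J) ^ 4) := by
      rw [hG1, hK0]; ring
    rw [e5]
    calc K0 * (n : ℝ) ^ 2 * ((2 ^ J) ^ 4) ≤ 2 ^ J * (2 ^ J) ^ b * (2 ^ J) ^ 4 := by
          apply mul_le_mul_of_nonneg_right _ (by positivity)
          exact mul_le_mul hK0J hnb (by positivity) (by positivity)
      _ = (2 ^ J) ^ (b + 5) := by ring
  · have h16 : 49152 * M ≤ K0 := by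
      rw [hK0]
      have h1M : 1 ≤ M ^ 2 := one_le_pow₀ (by linarith)
      have : M ≤ M ^ 3 := by
        calc M = M * 1 := (mul_one M).symm
          _ ≤ M * M ^ 2 := mul_le_mul_of_nonneg_left h1M hMpos.le
          _ = M ^ 3 := by ring
      linarith
    have h17 : (1:ℝ) ≤ 2 ^ J := one_le_pow₀ (by norm_num)
    calc 49152 * M * (2 ^ J) ^ 2 ≤ 2 ^ J * (2 ^ J) ^ 2 := by
          apply mul_le_mul_of_nonneg_right _ (by positivity)
          linarith
      _ = (2 ^ J) ^ 3 := by ring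
      _ ≤ (2 ^ J) ^ (b + 5) := pow_le_pow_right₀ h17 (by omega)
  · calc ((b + 5 : ℕ) : ℝ) * N ≤ 54 * P / ε * (17 * (D0 * (3 * l + 1))) :=
          mul_le_mul hB54 hN17 (Nat.cast_nonneg N) (by positivity)
      _ ≤ 54 * P / ε * (17 * (((64 * (344064 * M ^ 3)) ^ (2 * P) * 8 ^ (2 * P) *
          (n : ℝ) ^ (ε / 2)) * (3 * l + 1))) := by
          apply mul_le_mul_of_nonneg_left _ (by positivity)
          apply mul_le_mul_of_nonneg_left _ (by norm_num)
          exact mul_le_mul_of_nonneg_right hD0le (by positivity)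
      _ = (C * (3 * l + 1)) * (n : ℝ) ^ (ε / 2) := by rw [hC]; ring
      _ ≤ (n : ℝ) ^ (ε / 2) * (n : ℝ) ^ (ε / 2) :=
          mul_le_mul_of_nonneg_right h1 (Real.rpow_nonneg hn0R.le _)
      _ = (n : ℝ) ^ ε := by
          rw [← Real.rpow_add hn0R]; congr 1; ring

end Vale.Agent.P249
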