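import Mathlib
import Vale.Agent.P249.Defs
import Vale.Agent.P249.Assemble
import Vale.Agent.P249.Params
import Vale.Agent.P249.Disc

open MeasureTheory
open scoped ENNReal

namespace Vale.Agent.P249

universe u

theorem suffices_pow (p : ℝ≥0∞) [Fact (1 ≤ p)] (hp : p ≠ ∞) (ε : ℝ) (hε0 : 0 < ε)
    (hε1 : ε ≤ 1) :
    ∃ n₀ : ℕ, ∀ n : ℕ, n₀ ≤ n → ∃ d : ℕ, (d : ℝ) ≤ (n : ℝ) ^ ε ∧
      ∀ D : ℝ, 10 ^ 12 * (p.toReal / ε) ^ 3 ≤ D → Suffices.{u} p n D d := by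
  have hP := one_le_toReal hp
  set P := p.toReal with hPd
  have hP0 : 0 < P := by linarith
  obtain ⟨n₀, hn₀⟩ := params P ε hP hε0 hε1
  refine ⟨max n₀ 1, fun n hn => ?_⟩
  obtain ⟨J, N, B, hJ, hN0, h1, h2, h3, h4, h5, h6⟩ := hn₀ n (le_trans (le_max_left _ _) hn)
  have hn1 : 1 ≤ n := le_trans (le_max_right _ _) hn
  refine ⟨B * N, by push_cast; exact h6, fun D hD α _ μ X hX => ?_⟩
  set M := 64 * P / ε with hM
  have hPε : 1 ≤ P / ε := by rw [le_div_iff₀ hε0]; linarith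
  have hM1 : 1 ≤ M := by rw [hM, mul_div_assoc]; linarith
  -- reindex
  let e : X ≃ Fin n := X.equivFinOfCardEq hX
  have hfinj : Function.Injective (fun i : Fin n => ((e.symm i : X) : Lp ℝ p μ)) :=
    Subtype.val_injective.comp e.symm.injective
  have : Nonempty (Fin n) := ⟨⟨0, hn1⟩⟩
  obtain ⟨m, g, hg⟩ := discretize μ p hp (fun i : Fin n => ((e.symm i : X) : Lp ℝ p μ)) hfinj
  have hginj : Function.Injective g := by
    intro i j hij
    have h7 := (hg i j).1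
    rw [hij, sub_self, norm_zero] at h7
    have h8 : ‖((e.symm i : X) : Lp ℝ p μ) - ((e.symm j : X) : Lp ℝ p μ)‖ = 0 :=
      le_antisymm (by linarith) (norm_nonneg _)
    exact hfinj (sub_eq_zero.mp (norm_eq_zero.mp h8))
  obtain ⟨F, hF⟩ := assemble_fin p hp g hginj J hJ M hM1
    (by rw [Fintype.card_fin]; exact h1)
    (344064 * M ^ 3 * (2 ^ J) ^ 3) rfl N hN0
    (by rw [Fintype.card_fin]; exact h2) B
    (by rw [Fintype.card_fin]; exact h3) h4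
  refine ⟨fun x => F (e x), 1 / 1024, by norm_num, fun x y => ?_⟩
  obtain ⟨a1, a2⟩ := hF (e x) (e y)
  obtain ⟨b1, b2⟩ := hg (e x) (e y)
  simp only [Equiv.symm_apply_apply] at b1 b2
  set t := ‖(x : Lp ℝ p μ) - (y : Lp ℝ p μ)‖ with ht
  have ht0 : 0 ≤ t := norm_nonneg _
  constructor
  · linarith
  · have hB0 : (0:ℝ) ≤ B := Nat.cast_nonneg B
    have c1 : (B : ℝ) * (641 * M ^ 2) * ‖g (e x) - g (e y)‖ ≤ B * (641 * M ^ 2) * (2 * t) :=
      mul_le_mul_of_nonneg_left b2 (by positivity)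
    have c2 : (B : ℝ) * (641 * M ^ 2) * 2 ≤ D * (1 / 1024) := by
      have c3 : (B : ℝ) * (641 * M ^ 2) * 2 ≤ 54 * P / ε * (641 * M ^ 2) * 2 := by
        apply mul_le_mul_of_nonneg_right _ (by norm_num)
        exact mul_le_mul_of_nonneg_right h5 (by positivity)
      have c4 : 54 * P / ε * (641 * M ^ 2) * 2 ≤ 10 ^ 12 * (P / ε) ^ 3 * (1 / 1024) := by
        have e1 : 54 * P / ε * (641 * M ^ 2) * 2 = (54 * 641 * 64 ^ 2 * 2) * (P / ε) ^ 3 := by
          rw [hM]; ring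
        rw [e1]
        have : 0 ≤ (P / ε) ^ 3 := by positivity
        nlinarith
      linarith
    have c5 := mul_le_mul_of_nonneg_right c2 ht0
    calc ‖F (e x) - F (e y)‖ ≤ (B : ℝ) * (641 * M ^ 2) * (2 * t) := a2.trans c1
      _ = (B : ℝ) * (641 * M ^ 2) * 2 * t := by ring
      _ ≤ D * (1 / 1024) * t := c5

theorem dimLp_spec (p : ℝ≥0∞) [Fact (1 ≤ p)] (n d : ℕ) (D : ℝ) (h : Suffices.{u} p n D d) :
    Suffices.{u} p n D (dimLp.{u} p n D) ∧ dimLp.{u} p n D ≤ d :=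
  ⟨Nat.sInf_mem (s := {d | Suffices.{u} p n D d}) ⟨d, h⟩, Nat.sInf_le h⟩

end Vale.Agent.P249
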